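import Vale.Agent.P228.Var.Local
import Vale.Agent.P228.Defs

/-!
From the local theorem to connected manifolds.
-/

noncomputable section

open Set Filter MeasureTheory Metric Function Module
open scoped Topology NNReal ENNReal RealInnerProductSpace

namespace Vale.Agent.P228

variable {p : ℕ} [Fact p.Prime] {M : Type*} [TopologicalSpace M] {act : ℤ_[p] → M → M}

lemma eventually_forall_pow_mul {P : ℤ_[p] → Prop} (hP : ∀ᶠ a in 𝓝 (0 : ℤ_[p]), P a) :
    ∀ᶠ j : ℕ in atTop, ∀ a : ℤ_[p], P ((p : ℤ_[p]) ^ j * a) := by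
  obtain ⟨ε, hε, hball⟩ := Metric.eventually_nhds_iff.1 hP
  have ht : Tendsto (fun j : ℕ => ‖(p : ℤ_[p])‖ ^ j) atTop (𝓝 0) :=
    tendsto_pow_atTop_nhds_zero_of_lt_one (norm_nonneg _) (PadicInt.norm_lt_one_iff_dvd _ |>.2 dvd_rfl)
  filter_upwards [ht.eventually (Iio_mem_nhds hε)] with j hj a
  refine hball ?_
  rw [dist_zero_right, norm_mul, norm_pow]
  exact lt_of_le_of_lt (mul_le_of_le_one_right (pow_nonneg (norm_nonneg _) _)
    (PadicInt.norm_le_one a)) hj

lemma ZpAct.scale (hact : ZpAct p act) (b : ℤ_[p]) : ZpAct p fun a => act (b * a) where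
  cont := hact.cont.comp ((continuous_const.mul continuous_fst).prodMk continuous_snd)
  zero m := by rw [mul_zero, hact.zero]
  add a c m := by rw [mul_add, hact.add]

lemma ZpAct.inj (hact : ZpAct p act) (a : ℤ_[p]) : Injective (act a) := fun x y h => by
  have := congrArg (act (-a)) h
  rwa [← hact.add, ← hact.add, neg_add_cancel, hact.zero, hact.zero] at this

lemma ZpAct.comm (hact : ZpAct p act) (a b : ℤ_[p]) (m : M) :
    act a (act b m) = act b (act a m) := by
  rw [← hact.add, add_comm, hact.add]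

section Tube

variable {E : Type*} [NormedAddCommGroup E]

lemma eventually_actE_near (hact : ZpAct p act) (e : OpenPartialHomeomorph M E) {K : Set E}
    (hK : IsCompact K) (hKt : K ⊆ e.target) {δ : ℝ} (hδ : 0 < δ) :
    ∀ᶠ a in 𝓝 (0 : ℤ_[p]),
      ∀ w ∈ K, act a (e.symm w) ∈ e.source ∧ ‖e (act a (e.symm w)) - w‖ < δ := by
  refine hK.eventually_forall_of_forall_eventually fun w hw => ?_
  have hs : ContinuousAt (fun z : ℤ_[p] × E => act z.1 (e.symm z.2)) (0, w) :=
    hact.cont.continuousAt.comp (continuousAt_fst.prodMk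
      ((e.continuousAt_symm (hKt hw)).comp continuousAt_snd))
  have hmem : act 0 (e.symm w) ∈ e.source := by
    rw [hact.zero]; exact e.map_target (hKt hw)
  have he : ContinuousAt (fun z : ℤ_[p] × E => ‖e (act z.1 (e.symm z.2)) - z.2‖) (0, w) :=
    (((e.continuousAt hmem).comp (f := fun z : ℤ_[p] × E => act z.1 (e.symm z.2)) hs).sub
      continuousAt_snd).norm
  have h0 : ‖e (act 0 (e.symm w)) - w‖ < δ := by
    rw [hact.zero, e.right_inv (hKt hw), sub_self, norm_zero]; exact hδ
  exact Filter.Eventually.and (hs.preimage_mem_nhds (e.open_source.mem_nhds hmem))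
    (he.preimage_mem_nhds (Iio_mem_nhds h0))

lemma exists_orbit_ball (hact : ZpAct p act) (e : OpenPartialHomeomorph M E)
    (h0 : (0 : E) ∈ e.target) (hfix : ∀ a, act a (e.symm 0) = e.symm 0) {R : ℝ} (hR : 0 < R) :
    ∃ r > 0, r ≤ R ∧ closedBall (0 : E) r ⊆ e.target ∧
      ∀ w ∈ closedBall (0 : E) r, ∀ a,
        act a (e.symm w) ∈ e.source ∧ ‖e (act a (e.symm w))‖ < R := by
  have h : ∀ᶠ w in 𝓝 (0 : E), ∀ a ∈ (univ : Set ℤ_[p]),
      act a (e.symm w) ∈ e.source ∧ ‖e (act a (e.symm w))‖ < R := by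
    refine isCompact_univ.eventually_forall_of_forall_eventually fun a _ => ?_
    have hs : ContinuousAt (fun z : E × ℤ_[p] => act z.2 (e.symm z.1)) (0, a) :=
      hact.cont.continuousAt.comp (continuousAt_snd.prodMk
        ((e.continuousAt_symm h0).comp (f := fun z : E × ℤ_[p] => z.1) (x := ((0 : E), a))
          continuousAt_fst))
    have hmem : act a (e.symm 0) ∈ e.source := by rw [hfix]; exact e.map_target h0
    have he : ContinuousAt (fun z : E × ℤ_[p] => ‖e (act z.2 (e.symm z.1))‖) (0, a) :=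
      ((e.continuousAt hmem).comp (f := fun z : E × ℤ_[p] => act z.2 (e.symm z.1)) hs).norm
    have h1 : ‖e (act a (e.symm 0))‖ < R := by
      rw [hfix, e.right_inv h0, norm_zero]; exact hR
    exact Filter.Eventually.and (hs.preimage_mem_nhds (e.open_source.mem_nhds hmem))
      (he.preimage_mem_nhds (Iio_mem_nhds h1))
  obtain ⟨r, hr, hsub⟩ := Metric.nhds_basis_closedBall.mem_iff.1
    (h.and (e.open_target.mem_nhds h0))
  refine ⟨min r R, lt_min hr hR, min_le_right _ _,
    fun w hw => (hsub (closedBall_subset_closedBall (min_le_left _ _) hw)).2, fun w hw a => ?_⟩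
  exact (hsub (closedBall_subset_closedBall (min_le_left _ _) hw)).1 a (mem_univ a)

end Tube

variable {n : ℕ}

lemma exists_dyadicCube (m : ℕ) (x : EuclideanSpace ℝ (Fin n)) : ∃ q, x ∈ dyadicCube n m q :=
  ⟨fun i => ⌊(2 : ℝ) ^ m * x i⌋, fun i => ⟨Int.floor_le _, (Int.lt_floor_add_one _).le⟩⟩

/-- Shrinking to a compact set, oscillation sums control averaged variations. -/
lemma smallVariation_of_tendsto [NeZero n] {act' : ℤ_[p] → M → M}
    {e' : OpenPartialHomeomorph M (EuclideanSpace ℝ (Fin n))}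
    {C : Set (EuclideanSpace ℝ (Fin n))}
    (g : ℕ → (Fin n → ℤ) → Set (EuclideanSpace ℝ (Fin n)))
    (F : ℕ → ℤ_[p] → ℝ≥0∞) (hcov : ∀ m, C ⊆ ⋃ q, g m q)
    (hle : ∀ m, ∑' q, ∫⁻ h, (ediam (actE act' e' h '' (g m q ∩ C))) ^ (n + 2) ∂haarZp p
      ≤ ∫⁻ h, F m h ∂haarZp p)
    (hF : Tendsto (fun m => ∫⁻ h, F m h ∂haarZp p) atTop (𝓝 0)) :
    SmallVariation act' e' C := by
  intro η hη
  obtain ⟨m, hm⟩ := (hF.eventually (Iio_mem_nhds hη)).exists
  refine ⟨Fin n → ℤ, inferInstance, g m, hcov m, ?_⟩
  rw [finrank_euclideanSpace_fin]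
  exact (hle m).trans_lt hm

variable [T2Space M] [ChartedSpace (EuclideanSpace ℝ (Fin n)) M]

/-- Near every point some open subgroup acts trivially. -/
theorem exists_trivial_near [NeZero n] (hact : ZpAct p act)
    (hv : ∀ a, VanishingVariation n (act a)) (x : M) :
    ∃ k : ℕ, ∀ᶠ y in 𝓝 x, ∀ a, act ((p : ℤ_[p]) ^ k * a) y = y := by
  have : Nontrivial (EuclideanSpace ℝ (Fin n)) :=
    Module.nontrivial_of_finrank_pos (R := ℝ)
      (by rw [finrank_euclideanSpace_fin]; exact Nat.pos_of_ne_zero (NeZero.ne n))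
  let e := chartAt (EuclideanSpace ℝ (Fin n)) x
  have he : e ∈ atlas (EuclideanSpace ℝ (Fin n)) M := chart_mem_atlas _ _
  have hxs : x ∈ e.source := mem_chart_source _ _
  let w0 := e x
  obtain ⟨R1, hR1, hR1t⟩ := Metric.nhds_basis_closedBall.mem_iff.1
    (e.open_target.mem_nhds (e.map_source hxs))
  let C0 := closedBall w0 R1
  have hC0 : IsCompact C0 := isCompact_closedBall _ _
  -- small subgroup keeping the chart ball inside, moving the centre little
  obtain ⟨j0, hj0⟩ := (eventually_forall_pow_mul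
    (eventually_actE_near hact e hC0 hR1t (half_pos hR1))).exists
  let b : ℤ_[p] := (p : ℤ_[p]) ^ j0
  have hactb := hact.scale b
  have hCS : ChartSet (fun a => act (b * a)) e C0 :=
    ⟨hC0, hR1t, fun a w hw => (hj0 a w hw).1⟩
  let O : ℕ → ℤ_[p] → ℝ≥0∞ := fun m a =>
    oscSum n (actE (fun a => act (b * a)) e a) C0 m
  have hOsc : ∀ m, LowerSemicontinuous (O m) := fun m =>
    lowerSemicontinuous_tsum fun q => (ENNReal.continuous_pow (n + 2)).comp_lowerSemicontinuous
      (lowerSemicontinuous_ediam hactb hCS _ inter_subset_left) fun _ _ h => pow_le_pow_left' h _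
  have hlim : ∀ a, Tendsto (fun m => O m a) atTop (𝓝 0) := fun a =>
    hv (b * a) e he C0 hC0 hR1t fun w hw => (hj0 a w hw).1
  let A : ℕ → Set ℤ_[p] := fun m => {a | ∀ m', m ≤ m' → O m' a ≤ 1}
  have hA : ∀ m, IsClosed (A m) := fun m => by
    simp only [A, setOf_forall]
    exact isClosed_iInter fun m' => isClosed_iInter fun _ => (hOsc m').isClosed_preimage 1
  have hU : ⋃ m, A m = univ := by
    refine eq_univ_of_forall fun a => ?_
    obtain ⟨m, hm⟩ := eventually_atTop.1 ((hlim a).eventually (Iic_mem_nhds zero_lt_one))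
    exact mem_iUnion.2 ⟨m, hm⟩
  obtain ⟨m0, c, hc⟩ := nonempty_interior_of_iUnion_of_closed hA hU
  have hc' : ∀ᶠ a in 𝓝 (0 : ℤ_[p]), c + a ∈ A m0 := by
    have : Tendsto (fun a => c + a) (𝓝 (0 : ℤ_[p])) (𝓝 c) :=
      (continuous_const_add c).tendsto' 0 c (add_zero c)
    exact this (mem_interior_iff_mem_nhds.1 hc)
  -- the translated point
  have hxC0 : w0 ∈ C0 := mem_closedBall_self hR1.le
  let x1 := act (b * c) x
  let w1 := e x1
  have hsym : e.symm w0 = x := e.left_inv hxs
  have hx1s : x1 ∈ e.source := by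
    have := (hj0 c w0 hxC0).1
    rwa [hsym] at this
  have hG : ∀ᶠ w in 𝓝 w1, w ∈ e.target ∧
      ∃ v ∈ C0, e (act (b * c) (e.symm v)) = w := by
    have hs : ContinuousAt (fun w => act (b * -c) (e.symm w)) w1 :=
      (hact.cont.comp (Continuous.prodMk_right (b * -c))).continuousAt.comp
        (e.continuousAt_symm (e.map_source hx1s))
    have hval : act (b * -c) (e.symm w1) = x := by
      rw [e.left_inv hx1s, ← hact.add, mul_neg, neg_add_cancel, hact.zero]
    have hnb : e.source ∩ e ⁻¹' C0 ∈ 𝓝 (act (b * -c) (e.symm w1)) := by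
      rw [hval]
      exact inter_mem (e.open_source.mem_nhds hxs)
        ((e.continuousAt hxs).preimage_mem_nhds (closedBall_mem_nhds _ hR1))
    filter_upwards [e.open_target.mem_nhds (e.map_source hx1s), hs.preimage_mem_nhds hnb]
      with w hw hw'
    refine ⟨hw, e (act (b * -c) (e.symm w)), hw'.2, ?_⟩
    rw [e.left_inv hw'.1, ← hact.add, mul_neg, add_neg_cancel, hact.zero, e.right_inv hw]
  obtain ⟨R, hR, hRG⟩ := Metric.nhds_basis_closedBall.mem_iff.1 hG
  have hKt : closedBall w1 R ⊆ e.target := fun w hw => (hRG hw).1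
  let δ := R / 32
  have hδ : 0 < δ := by positivity
  obtain ⟨k1, hk1⟩ := ((eventually_forall_pow_mul hc').and
    (eventually_forall_pow_mul (eventually_actE_near hactb e (isCompact_closedBall w1 R)
      hKt hδ))).exists
  let d : ℤ_[p] := (p : ℤ_[p]) ^ k1
  let act' : ℤ_[p] → M → M := fun a => act (b * (d * a))
  have hact' : ZpAct p act' := hactb.scale d
  let e' := e.transHomeomorph (Homeomorph.addRight (-w1))
  have hsy : ∀ w, (Homeomorph.addRight (-w1)).symm w = w + w1 := fun w => by
    rw [Homeomorph.symm_apply_eq]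
    simp
  have he't : ∀ w, w ∈ e'.target ↔ w + w1 ∈ e.target := fun w => by
    rw [← hsy w]; exact Iff.rfl
  have he's : ∀ w, e'.symm w = e.symm (w + w1) := fun w => by
    rw [← hsy w]; rfl
  have he'a : ∀ z, e' z = e z - w1 := fun z => by
    rw [sub_eq_add_neg]; rfl
  let C := closedBall (0 : EuclideanSpace ℝ (Fin n)) R
  have hmove : ∀ w ∈ C, ∀ a, act' a (e'.symm w) ∈ e.source ∧
      ‖actE act' e' a w - w‖ < δ := by
    intro w hw a
    have hw' : w + w1 ∈ closedBall w1 R := by
      simpa [C, dist_eq_norm] using hw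
    have := hk1.2 a (w + w1) hw'
    rw [actE, he'a, he's]
    exact ⟨this.1, by rw [sub_sub, add_comm w1 w]; exact this.2⟩
  have hChart : ChartSet act' e' C := by
    refine ⟨isCompact_closedBall _ _, fun w hw => (he't w).2 (hKt (by simpa [C, dist_eq_norm] using hw)),
      fun a w hw => ?_⟩
    simpa [e', OpenPartialHomeomorph.transHomeomorph] using (hmove w hw a).1
  have hvar : SmallVariation act' e' C := by
    refine smallVariation_of_tendsto
      (g := fun m q => (fun v => e (act (b * c) (e.symm v)) - w1) '' (C0 ∩ dyadicCube n m q))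
      (F := fun m h => O m (c + d * h)) (fun m => ?_) (fun m => ?_) ?_
    · intro w hw
      obtain ⟨-, v, hv0, hvw⟩ := hRG (show w + w1 ∈ closedBall w1 R by
        simpa [C, dist_eq_norm] using hw)
      obtain ⟨q, hq⟩ := exists_dyadicCube m v
      exact mem_iUnion.2 ⟨q, v, ⟨hv0, hq⟩, by simp [hvw]⟩
    · rw [← lintegral_tsum fun q => ?_]
      · refine lintegral_mono fun h => ENNReal.tsum_le_tsum fun q => ?_
        refine pow_le_pow_left' ?_ _
        rw [← Isometry.ediam_image (isometry_add_right (-w1))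
            (actE (fun a => act (b * a)) e (c + d * h) '' (C0 ∩ dyadicCube n m q))]
        refine ediam_mono ?_
        rintro _ ⟨w, ⟨⟨v, hv1, rfl⟩, hwC⟩, rfl⟩
        refine ⟨_, mem_image_of_mem _ hv1, ?_⟩
        simp only [actE, act', he's, he'a, sub_add_cancel]
        rw [e.left_inv (hj0 c v hv1.1).1, ← hact.add, ← sub_eq_add_neg]
        congr 4
        ring
      · exact ((ENNReal.continuous_pow (n + 2)).measurable.comp
          (lowerSemicontinuous_ediam hact' hChart _ inter_subset_right).measurable).aemeasurable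
    · have h := tendsto_lintegral_of_dominated_convergence (μ := haarZp p)
        (F := fun (i : ℕ) h => O (i + m0) (c + d * h)) (f := fun _ => (0 : ℝ≥0∞)) (fun _ => 1)
        (fun i => (hOsc (i + m0)).measurable.comp (by fun_prop))
        (fun i => Eventually.of_forall fun h => hk1.1 h (i + m0) (Nat.le_add_left _ _))
        (by simp) (Eventually.of_forall fun h =>
          (hlim (c + d * h)).comp (tendsto_add_atTop_nat m0))
      simp only [lintegral_const, zero_mul] at h
      exact (tendsto_add_atTop_iff_nat m0).1 h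
  have hnorm : ∀ w ∈ C, ‖avg act' e' w - w‖ ≤ δ := by
    intro w hw
    have hi := integrable_of_continuous (continuous_actE_param hact' hChart hw)
    have : avg act' e' w - w = ∫ h, (actE act' e' h w - w) ∂haarZp p := by
      rw [integral_sub hi (integrable_const _)]
      simp [avg]
    rw [this]
    refine (norm_integral_le_of_norm_le_const (C := δ)
      (Eventually.of_forall fun h => (hmove w hw h).2.le)).trans ?_
    simp
  let V := ball (0 : EuclideanSpace ℝ (Fin n)) (R / 2)
  have hclV : ∀ z ∈ closure V, ‖z‖ ≤ R / 2 := fun z hz => by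
    simpa using closure_ball_subset_closedBall hz
  have hfrV : ∀ z ∈ frontier V, ‖z‖ = R / 2 := fun z hz => by
    simpa using frontier_ball_subset_sphere hz
  have hC : ∀ z : EuclideanSpace ℝ (Fin n), ‖z‖ ≤ R → z ∈ C := fun z hz => by simpa [C] using hz
  have hseg : ∀ z ∈ closure V, ∀ τ ∈ Icc (0 : ℝ) 1,
      ‖(1 - τ) • z + τ • actE act' e' 1 z - z‖ ≤ δ ∧
        (1 - τ) • z + τ • actE act' e' 1 z ∈ C := by
    intro z hz τ hτ
    have h1 := (hmove z (hC z (by linarith [hclV z hz])) 1).2
    have h2 : ‖(1 - τ) • z + τ • actE act' e' 1 z - z‖ ≤ δ := by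
      rw [show (1 - τ) • z + τ • actE act' e' 1 z - z = τ • (actE act' e' 1 z - z) by module,
        norm_smul, Real.norm_eq_abs, abs_of_nonneg hτ.1]
      exact le_trans (mul_le_of_le_one_left (norm_nonneg _) hτ.2) h1.le
    refine ⟨h2, hC _ ?_⟩
    have := norm_le_norm_add_norm_sub' ((1 - τ) • z + τ • actE act' e' 1 z) z
    have := hclV z hz
    simp only [δ] at h2
    linarith
  have hmain := fixed_ball hact' hChart (convex_closedBall _ _) hvar (V := V) (ρ := R / 4)
    isOpen_ball (ball_subset_ball (by linarith))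
    (fun z hz => hC z (by linarith [hclV z hz])) ?hP (J := univ) ?hN ?hb ?hb'
  case hP =>
    intro i z hz τ hτ
    obtain ⟨h1, h2⟩ := hseg z hz τ hτ
    have h3 := (hmove _ h2 (i : ℤ_[p])).2
    refine hC _ ?_
    have := norm_le_norm_add_norm_sub' (actE act' e' (i : ℤ_[p])
      ((1 - τ) • z + τ • actE act' e' 1 z)) ((1 - τ) • z + τ • actE act' e' 1 z)
    have := norm_le_norm_add_norm_sub' ((1 - τ) • z + τ • actE act' e' 1 z) z
    have := hclV z hz
    simp only [δ] at h1 h3
    linarith
  case hN =>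
    intro ε hε
    obtain ⟨j, hj⟩ := (eventually_forall_pow_mul (eventually_actE_near hact' e'
      hChart.compact hChart.target hε)).exists
    refine ⟨j, mem_univ j, fun z hz => ?_⟩
    have := (hj 1 z (hC z (by linarith [hclV z hz]))).2
    rwa [mul_one] at this
  case hb =>
    intro j _ z hz i _ τ hτ t ht s hs r hr
    have hz' := frontier_subset_closure hz
    obtain ⟨h1, h2⟩ := hseg z hz' τ hτ
    have hzC : z ∈ C := hC z (by linarith [hfrV z hz])
    have h3 := (hmove _ h2 (i : ℤ_[p])).2
    have h4 := (hmove z hzC ((p : ℤ_[p]) ^ j)).2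
    set P := (1 - τ) • z + τ • actE act' e' 1 z
    set W := (1 - s) • actE act' e' (i : ℤ_[p]) P
      + s • ((1 - t) • z + t • actE act' e' ((p : ℤ_[p]) ^ j) z) with hW
    have hW2 : ‖W - z‖ ≤ 2 * δ := by
      rw [hW, show (1 - s) • actE act' e' (i : ℤ_[p]) P
          + s • ((1 - t) • z + t • actE act' e' ((p : ℤ_[p]) ^ j) z) - z
        = (1 - s) • ((actE act' e' (i : ℤ_[p]) P - P) + (P - z))
          + s • t • (actE act' e' ((p : ℤ_[p]) ^ j) z - z) by module]
      refine (norm_add_le _ _).trans ?_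
      rw [norm_smul, norm_smul, norm_smul, Real.norm_eq_abs, Real.norm_eq_abs, Real.norm_eq_abs,
        abs_of_nonneg (by linarith [hs.2] : (0:ℝ) ≤ 1 - s), abs_of_nonneg hs.1, abs_of_nonneg ht.1]
      have hA' := norm_add_le (actE act' e' (i : ℤ_[p]) P - P) (P - z)
      have hB : t * ‖actE act' e' ((p : ℤ_[p]) ^ j) z - z‖ ≤ 2 * δ :=
        le_trans (mul_le_of_le_one_left (norm_nonneg _) ht.2) (by linarith)
      calc (1 - s) * _ + s * (t * _) ≤ (1 - s) * (2 * δ) + s * (2 * δ) :=
            add_le_add (mul_le_mul_of_nonneg_left (by linarith) (by linarith [hs.2]))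
              (mul_le_mul_of_nonneg_left hB hs.1)
        _ = 2 * δ := by ring
    have hWC : W ∈ C := hC _ (by
      have := norm_le_norm_add_norm_sub' W z
      have := hfrV z hz
      simp only [δ] at hW2
      linarith)
    have h5 := hnorm W hWC
    have h6 := hnorm z hzC
    have hfin : ‖(1 - r) • avg act' e' z + r • avg act' e' W - z‖ ≤ 3 * δ := by
      rw [show (1 - r) • avg act' e' z + r • avg act' e' W - z = (1 - r) • (avg act' e' z - z)
        + r • ((avg act' e' W - W) + (W - z)) by module]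
      refine (norm_add_le _ _).trans ?_
      rw [norm_smul, norm_smul, Real.norm_eq_abs, Real.norm_eq_abs,
        abs_of_nonneg (by linarith [hr.2] : (0:ℝ) ≤ 1 - r), abs_of_nonneg hr.1]
      have hA' := norm_add_le (avg act' e' W - W) (W - z)
      calc (1 - r) * _ + r * _ ≤ (1 - r) * (3 * δ) + r * (3 * δ) :=
            add_le_add (mul_le_mul_of_nonneg_left (by linarith) (by linarith [hr.2]))
              (mul_le_mul_of_nonneg_left (by linarith) hr.1)
        _ = 3 * δ := by ring
    have := norm_le_norm_add_norm_sub ((1 - r) • avg act' e' z + r • avg act' e' W) z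
    have := hfrV z hz
    simp only [δ] at hfin
    linarith
  case hb' =>
    intro z hz s hs
    have h6 := hnorm z (hC z (by linarith [hfrV z hz]))
    have hfin : ‖(1 - s) • avg act' e' z + s • z - z‖ ≤ δ := by
      rw [show (1 - s) • avg act' e' z + s • z - z = (1 - s) • (avg act' e' z - z) by module,
        norm_smul, Real.norm_eq_abs, abs_of_nonneg (by linarith [hs.2] : (0:ℝ) ≤ 1 - s)]
      exact le_trans (mul_le_of_le_one_left (norm_nonneg _) (by linarith [hs.1])) h6
    have := norm_le_norm_add_norm_sub ((1 - s) • avg act' e' z + s • z) z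
    have := hfrV z hz
    simp only [δ] at hfin
    linarith
  refine ⟨j0 + k1, ?_⟩
  have hW : ∀ᶠ y in 𝓝 x, act (b * c) y ∈ e.source ∧
      e' (act (b * c) y) ∈ ball (0 : EuclideanSpace ℝ (Fin n)) (R / 4) := by
    have hcont : ContinuousAt (fun y => act (b * c) y) x :=
      (hact.cont.comp (Continuous.prodMk_right (b * c))).continuousAt
    have hsrc : e'.source = e.source := rfl
    refine Filter.Eventually.and (hcont.preimage_mem_nhds (e.open_source.mem_nhds hx1s))
      (((e'.continuousAt (by rw [hsrc]; exact hx1s)).comp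
        (f := fun y => act (b * c) y) hcont).preimage_mem_nhds (isOpen_ball.mem_nhds ?_))
    show e' x1 ∈ ball (0 : EuclideanSpace ℝ (Fin n)) (R / 4)
    rw [he'a]
    simpa [w1] using (by linarith : 0 < R / 4)
  filter_upwards [hW] with y hy a
  have h := hmain _ hy.2 a
  rw [e'.left_inv (show act (b * c) y ∈ e'.source from hy.1)] at h
  simp only [act'] at h
  rw [hact.comm] at h
  have h' := hact.inj _ h
  rwa [← mul_assoc, ← pow_add] at h'

end Vale.Agent.P228
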