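import Vale.Agent.P228.Var.Newman

/-!
Local Hölder exponents above `n / (n + 2)` give vanishing `(n+2)`-variation.
-/

noncomputable section

open Set Filter Metric Function
open scoped Topology NNReal ENNReal

namespace Vale.Agent.P228

variable {n : ℕ}

lemma dist_le_of_mem_dyadicCube {m : ℕ} {q : Fin n → ℤ} {x y : EuclideanSpace ℝ (Fin n)}
    (hx : x ∈ dyadicCube n m q) (hy : y ∈ dyadicCube n m q) :
    dist x y ≤ Real.sqrt n * ((2 : ℝ) ^ m)⁻¹ := by
  rw [EuclideanSpace.dist_eq]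
  have h2 : (0 : ℝ) < (2 : ℝ) ^ m := by positivity
  have hi : ∀ i, dist (x i) (y i) ≤ ((2 : ℝ) ^ m)⁻¹ := fun i => by
    have h1 := hx i
    have h3 := hy i
    rw [Real.dist_eq, inv_eq_one_div, le_div_iff₀ h2]
    rcases abs_cases (x i - y i) with ⟨h, -⟩ | ⟨h, -⟩ <;> rw [h] <;> nlinarith [h1.1, h1.2, h3.1, h3.2]
  calc Real.sqrt (∑ i, dist (x i) (y i) ^ 2)
      ≤ Real.sqrt (∑ _i : Fin n, (((2 : ℝ) ^ m)⁻¹) ^ 2) :=
        Real.sqrt_le_sqrt (Finset.sum_le_sum fun i _ => pow_le_pow_left₀ dist_nonneg (hi i) 2)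
    _ = Real.sqrt n * ((2 : ℝ) ^ m)⁻¹ := by
        rw [Finset.sum_const, Finset.card_univ, Fintype.card_fin, nsmul_eq_mul,
          Real.sqrt_mul (Nat.cast_nonneg n), Real.sqrt_sq (by positivity)]

/-- The Hölder condition implies vanishing variation. -/
theorem vanishingVariation_of_holder {M : Type*} [TopologicalSpace M]
    [ChartedSpace (EuclideanSpace ℝ (Fin n)) M] {g : M → M} (hg : HolderAboveCritical n g) :
    VanishingVariation n g := by
  classical
  intro e he C hC hCt hCs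
  set f := fun x => e (g (e.symm x)) with hf
  rcases C.eq_empty_or_nonempty with rfl | hne
  · have : oscSum n f ∅ = 0 := funext fun m => by simp [oscSum]
    rw [this]
    exact tendsto_const_nhds
  have hloc : ∀ x ∈ C, ∃ K α : ℝ≥0, (n : ℝ) / (n + 2) < α ∧
      ∃ U : Set (EuclideanSpace ℝ (Fin n)), IsOpen U ∧ x ∈ U ∧ HolderOnWith K α f U := by
    intro x hx
    obtain ⟨K, α, hα, U, hU, hH⟩ := hg e he x (hCt hx) (hCs x hx)
    obtain ⟨W, hW, hWo, hxW⟩ := _root_.mem_nhds_iff.1 hU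
    exact ⟨K, α, hα, W, hWo, hxW, hH.mono hW⟩
  choose! K α hα U hUo hxU hH using hloc
  obtain ⟨t, ht, htc⟩ := hC.elim_nhds_subcover U fun x hx => (hUo x hx).mem_nhds (hxU x hx)
  have htne : t.Nonempty := by
    obtain ⟨x, hx⟩ := hne
    obtain ⟨i, hi, -⟩ := mem_iUnion₂.1 (htc hx)
    exact ⟨i, hi⟩
  obtain ⟨δ, hδ, hLeb⟩ := lebesgue_number_lemma_of_metric (c := fun i : t => U i.1) hC
    (fun i => hUo i.1 (ht i.1 i.2)) (by
      intro x hx
      obtain ⟨i, hi, hxi⟩ := mem_iUnion₂.1 (htc hx)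
      exact mem_iUnion.2 ⟨⟨i, hi⟩, hxi⟩)
  let β : ℝ := t.inf' htne fun i => (α i : ℝ)
  have hn2 : (0 : ℝ) < (n : ℝ) + 2 := by positivity
  have hβ : (n : ℝ) / (n + 2) < β := (Finset.lt_inf'_iff htne).2 fun i hi => hα i (ht i hi)
  have hβ0 : 0 < β := lt_of_le_of_lt (by positivity) hβ
  let Km : ℝ≥0 := t.sup' htne K
  obtain ⟨R, hR⟩ := hC.isBounded.subset_closedBall (0 : EuclideanSpace ℝ (Fin n))
  let R' : ℕ := ⌈|R|⌉₊ + 1
  let d : ℕ → ℝ := fun m => Real.sqrt n * ((2 : ℝ) ^ m)⁻¹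
  let B : ℕ → Finset (Fin n → ℤ) := fun m => Fintype.piFinset fun _ =>
    Finset.Icc (-((R' * 2 ^ m : ℕ) : ℤ) - 1) ((R' * 2 ^ m : ℕ) : ℤ)
  have hout : ∀ m, ∀ q ∉ B m, C ∩ dyadicCube n m q = ∅ := by
    intro m q hq
    rw [eq_empty_iff_forall_notMem]
    rintro x ⟨hx, hxq⟩
    refine hq (Fintype.mem_piFinset.2 fun i => Finset.mem_Icc.2 ?_)
    have h1 : |x i| ≤ (R' : ℝ) := by
      have h2 : ‖x i‖ ≤ ‖x‖ := PiLp.norm_apply_le x i
      have h3 : ‖x‖ ≤ R := by simpa using hR hx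
      rw [Real.norm_eq_abs] at h2
      have h4 : |R| ≤ (⌈|R|⌉₊ : ℝ) := Nat.le_ceil _
      simp only [R']
      push_cast
      linarith [le_abs_self R]
    have hp : (0 : ℝ) < 2 ^ m := by positivity
    have h5 := hxq i
    have ha := abs_le.1 h1
    constructor
    · have : -((R' : ℝ) * 2 ^ m) - 1 ≤ (q i : ℝ) := by nlinarith [h5.2]
      exact_mod_cast this
    · have : (q i : ℝ) ≤ (R' : ℝ) * 2 ^ m := by nlinarith [h5.1]
      exact_mod_cast this
  have hcard : ∀ m, ((B m).card : ℝ) ≤ ((2 * R' + 2 : ℕ) : ℝ) ^ n * ((2 : ℝ) ^ m) ^ n := by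
    intro m
    have : (B m).card = (2 * (R' * 2 ^ m) + 2) ^ n := by
      simp only [B, Fintype.card_piFinset, Int.card_Icc, Finset.prod_const, Finset.card_univ,
        Fintype.card_fin]
      congr 1
      omega
    rw [this, ← mul_pow]
    push_cast
    refine pow_le_pow_left₀ (by positivity) ?_ n
    have : (1 : ℝ) ≤ 2 ^ m := one_le_pow₀ one_le_two
    nlinarith
  have hd : Tendsto d atTop (𝓝 0) := by
    have := (tendsto_inv_atTop_zero.comp (tendsto_pow_atTop_atTop_of_one_lt one_lt_two (r := (2:ℝ)))).const_mul (Real.sqrt n)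
    simpa [d] using this
  let bnd : ℕ → ℝ := fun m =>
    ((2 * R' + 2 : ℕ) : ℝ) ^ n * ((2 : ℝ) ^ m) ^ n * ((Km : ℝ) * d m ^ β) ^ (n + 2)
  have hbnd : ∀ᶠ m in atTop, oscSum n f C m ≤ ENNReal.ofReal (bnd m) := by
    filter_upwards [hd.eventually (Iio_mem_nhds (lt_min hδ one_pos))] with m hm
    have hd0 : 0 ≤ d m := by positivity
    rw [oscSum, tsum_eq_sum (s := B m) fun q hq => by simp [hout m q hq]]
    have hterm : ∀ q ∈ B m, ediam (f '' (C ∩ dyadicCube n m q)) ^ (n + 2)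
        ≤ ENNReal.ofReal (((Km : ℝ) * d m ^ β) ^ (n + 2)) := by
      intro q _
      rw [ENNReal.ofReal_pow (by positivity)]
      refine pow_le_pow_left' ?_ _
      refine ediam_le ?_
      rintro _ ⟨x, hx, rfl⟩ _ ⟨y, hy, rfl⟩
      obtain ⟨⟨i, hi⟩, hball⟩ := hLeb x hx.1
      have hxy := dist_le_of_mem_dyadicCube hx.2 hy.2
      have hyU : y ∈ U i := hball (by
        rw [mem_ball, dist_comm]
        exact lt_of_le_of_lt hxy (hm.trans_le (min_le_left _ _)))
      rw [edist_dist]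
      refine ENNReal.ofReal_le_ofReal ?_
      refine ((hH i (ht i hi)).dist_le_of_le (hball (mem_ball_self hδ)) hyU hxy).trans ?_
      refine mul_le_mul ?_ ?_ (Real.rpow_nonneg hd0 _) Km.2
      · exact_mod_cast Finset.le_sup' K hi
      · exact Real.rpow_le_rpow_of_exponent_ge' hd0 (hm.le.trans (min_le_right _ _)) hβ0.le
          (Finset.inf'_le _ hi)
    refine (Finset.sum_le_sum hterm).trans ?_
    rw [Finset.sum_const, nsmul_eq_mul, ← ENNReal.ofReal_natCast,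
      ← ENNReal.ofReal_mul (Nat.cast_nonneg _)]
    exact ENNReal.ofReal_le_ofReal (mul_le_mul_of_nonneg_right (hcard m) (by positivity))
  have hlim : Tendsto bnd atTop (𝓝 0) := by
    let r : ℝ := (2 : ℝ) ^ ((n : ℝ) - β * (n + 2))
    have hr : r < 1 := by
      refine Real.rpow_lt_one_of_one_lt_of_neg one_lt_two ?_
      rw [div_lt_iff₀ hn2] at hβ
      linarith
    let c : ℝ := ((2 * R' + 2 : ℕ) : ℝ) ^ n * (((Km : ℝ) * Real.sqrt n ^ β) ^ (n + 2))
    have heq : ∀ m, bnd m = c * r ^ m := by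
      intro m
      have h2 : (0 : ℝ) ≤ 2 := zero_le_two
      simp only [bnd, c, r, d]
      rw [Real.mul_rpow (Real.sqrt_nonneg _) (by positivity),
        ← Real.rpow_natCast 2 m, ← Real.rpow_neg h2, ← Real.rpow_mul h2,
        ← Real.rpow_natCast ((2 : ℝ) ^ (m : ℝ)) n, ← Real.rpow_mul h2,
        ← Real.rpow_natCast ((2 : ℝ) ^ ((n : ℝ) - β * (n + 2))) m, ← Real.rpow_mul h2]
      have : ((2 : ℝ) ^ (-(m : ℝ) * β)) ^ (n + 2) = 2 ^ (-(m : ℝ) * β * (n + 2)) := by
        rw [← Real.rpow_natCast, ← Real.rpow_mul h2]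
        push_cast
        ring_nf
      rw [show ((n : ℝ) - β * (n + 2)) * m = (m : ℝ) * n + -(m : ℝ) * β * (n + 2) by ring,
        Real.rpow_add two_pos, ← this]
      ring
    have := (tendsto_pow_atTop_nhds_zero_of_lt_one (by positivity) hr).const_mul c
    rw [mul_zero] at this
    exact this.congr fun m => (heq m).symm
  have hlim' := ENNReal.tendsto_ofReal hlim
  rw [ENNReal.ofReal_zero] at hlim'
  exact tendsto_of_tendsto_of_tendsto_of_le_of_le' tendsto_const_nhds hlim'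
    (Eventually.of_forall fun _ => zero_le) hbnd

end Vale.Agent.P228
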