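import Vale.Agent.P228.Core

/-!
Local theorem: a small action of `ℤ_[p]` with vanishing `(n+2)`-variation fixes a ball.
-/

noncomputable section

open Set Filter MeasureTheory Metric Function Module
open scoped Topology NNReal ENNReal

namespace Vale.Agent.P228

variable {p : ℕ} [hp : Fact p.Prime]

instance instMeasurableSpacePadic : MeasurableSpace ℤ_[p] := borel _

instance instBorelSpacePadic : BorelSpace ℤ_[p] := ⟨rfl⟩

/-- The Haar probability measure on the `p`-adic integers. -/
def haarZp (p : ℕ) [Fact p.Prime] : Measure ℤ_[p] :=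
  Measure.addHaarMeasure (⊤ : TopologicalSpace.PositiveCompacts ℤ_[p])

instance : (haarZp p).IsAddHaarMeasure := Measure.isAddHaarMeasure_addHaarMeasure _

instance : IsProbabilityMeasure (haarZp p) :=
  ⟨Measure.addHaarMeasure_self (K₀ := (⊤ : TopologicalSpace.PositiveCompacts ℤ_[p]))⟩

/-- The standard character of order `p`. -/
def zchar (h : ℤ_[p]) : ℂ := ZMod.stdAddChar (PadicInt.toZMod h)

lemma zchar_add (h k : ℤ_[p]) : zchar (h + k) = zchar h * zchar k := by
  simp [zchar, AddChar.map_add_eq_mul]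

lemma zchar_natCast (i : ℕ) : zchar (i : ℤ_[p]) = circ (i / p) := by
  have h := ZMod.stdAddChar_coe (N := p) (i : ℤ)
  rw [Int.cast_natCast] at h
  simp only [zchar, map_natCast, h, circ]
  push_cast
  ring_nf

lemma norm_zchar (h : ℤ_[p]) : ‖zchar h‖ = 1 := by
  simp [zchar, ZMod.stdAddChar_apply, Circle.norm_coe]

lemma toZMod_eq_of_dist_lt {h k : ℤ_[p]} (hk : dist h k < 1) :
    PadicInt.toZMod h = PadicInt.toZMod k := by
  rw [← sub_eq_zero, ← map_sub]
  have : h - k ∈ RingHom.ker (PadicInt.toZMod : ℤ_[p] →+* ZMod p) := by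
    rw [PadicInt.ker_toZMod, IsLocalRing.mem_maximalIdeal, PadicInt.mem_nonunits,
      ← dist_eq_norm]
    exact hk
  exact this

lemma isLocallyConstant_toZMod : IsLocallyConstant (PadicInt.toZMod : ℤ_[p] → ZMod p) :=
  IsLocallyConstant.iff_eventually_eq _ |>.2 fun h => by
    filter_upwards [Metric.ball_mem_nhds h one_pos] with k hk
    exact toZMod_eq_of_dist_lt hk

@[fun_prop]
lemma continuous_zchar : Continuous (zchar : ℤ_[p] → ℂ) :=
  (isLocallyConstant_toZMod.comp fun z => ZMod.stdAddChar z).continuous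

lemma norm_eq_one_of_toZMod_ne {k : ℤ_[p]} (h : PadicInt.toZMod k ≠ 0) : ‖k‖ = 1 := by
  by_contra hne
  refine h ?_
  rw [← map_zero (PadicInt.toZMod : ℤ_[p] →+* ZMod p)]
  exact toZMod_eq_of_dist_lt (by
    rw [dist_eq_norm, sub_zero]; exact lt_of_le_of_ne (PadicInt.norm_le_one k) hne)

/-- A continuous action of `ℤ_[p]`, as a plain function. -/
structure ZpAct (p : ℕ) [Fact p.Prime] {M : Type*} [TopologicalSpace M]
    (act : ℤ_[p] → M → M) : Prop where
  cont : Continuous fun z : ℤ_[p] × M => act z.1 z.2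
  zero : ∀ m, act 0 m = m
  add : ∀ a b m, act (a + b) m = act a (act b m)

variable {M : Type*} [TopologicalSpace M] {act : ℤ_[p] → M → M}

lemma ZpAct.fixed_of_unit [T2Space M] (hact : ZpAct p act) {k : ℤ_[p]} (hk : ‖k‖ = 1) {m : M}
    (h : act k m = m) (l : ℤ_[p]) : act l m = m := by
  let G : AddSubgroup ℤ_[p] :=
    { carrier := {a | act a m = m}
      zero_mem' := hact.zero m
      add_mem' := fun {a b} (ha : act a m = m) (hb : act b m = m) => by
        show act (a + b) m = m
        rw [hact.add, hb, ha]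
      neg_mem' := fun {a} (ha : act a m = m) => by
        show act (-a) m = m
        conv_lhs => rw [← ha]
        rw [← hact.add, neg_add_cancel, hact.zero] }
  obtain ⟨w, rfl⟩ := PadicInt.isUnit_iff.2 hk
  have hclosed : IsClosed {a : ℤ_[p] | act (a * (w : ℤ_[p])) m = m} :=
    isClosed_eq (hact.cont.comp ((continuous_id.mul continuous_const).prodMk continuous_const))
      continuous_const
  have hall : {a : ℤ_[p] | act (a * (w : ℤ_[p])) m = m} = univ := by
    refine hclosed.closure_eq ▸ (Dense.closure_eq ?_)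
    refine Dense.mono ?_ PadicInt.denseRange_intCast
    rintro _ ⟨z, rfl⟩
    have := G.zsmul_mem h z
    simpa [G, zsmul_eq_mul] using this
  have := hall.ge (mem_univ (l * ((w⁻¹ : ℤ_[p]ˣ) : ℤ_[p])))
  simpa [mul_assoc] using this

variable {E : Type*} [NormedAddCommGroup E] [NormedSpace ℝ E] [FiniteDimensional ℝ E]
  [Nontrivial E]

lemma integrable_of_continuous {Y : Type*} [NormedAddCommGroup Y] {f : ℤ_[p] → Y}
    (hf : Continuous f) : Integrable f (haarZp p) :=
  hf.integrable_of_hasCompactSupport (HasCompactSupport.of_compactSpace f)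

/-- The action in a chart. -/
def actE (act : ℤ_[p] → M → M) (e : OpenPartialHomeomorph M E) (h : ℤ_[p]) (w : E) : E :=
  e (act h (e.symm w))

/-- The averaged chart map. -/
def avg (act : ℤ_[p] → M → M) (e : OpenPartialHomeomorph M E) (w : E) : E :=
  ∫ h, actE act e h w ∂haarZp p

/-- The twisted average of a test function. -/
def tw (act : ℤ_[p] → M → M) (e : OpenPartialHomeomorph M E) (a : E → ℂ) (w : E) : ℂ :=
  ∫ h, zchar (-h) * a (actE act e h w) ∂haarZp p

/-- A chart compact set whose orbit stays in the chart. -/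
structure ChartSet (act : ℤ_[p] → M → M) (e : OpenPartialHomeomorph M E) (C : Set E) :
    Prop where
  compact : IsCompact C
  target : C ⊆ e.target
  source : ∀ h, ∀ w ∈ C, act h (e.symm w) ∈ e.source

variable {e : OpenPartialHomeomorph M E} {C : Set E}

section
variable (hact : ZpAct p act) (hC : ChartSet act e C)
include hact hC

omit [FiniteDimensional ℝ E] [Nontrivial E] in
lemma continuousOn_actE :
    ContinuousOn (fun z : ℤ_[p] × E => actE act e z.1 z.2) (univ ×ˢ C) := by
  refine e.continuousOn.comp (hact.cont.comp_continuousOn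
    (continuousOn_fst.prodMk ((e.continuousOn_symm.mono hC.target).comp continuousOn_snd
      fun z hz => hz.2))) fun z hz => hC.source _ _ hz.2

omit [FiniteDimensional ℝ E] [Nontrivial E] in
lemma continuous_actE_param {w : E} (hw : w ∈ C) : Continuous fun h => actE act e h w := by
  exact (continuousOn_actE hact hC).comp_continuous (continuous_id.prodMk continuous_const)
    fun h => ⟨mem_univ _, hw⟩

omit [FiniteDimensional ℝ E] [Nontrivial E] in
lemma continuousOn_actE_point (h : ℤ_[p]) : ContinuousOn (actE act e h) C :=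
  (continuousOn_actE hact hC).comp (continuousOn_const.prodMk continuousOn_id)
    fun w hw => ⟨mem_univ _, hw⟩

omit [FiniteDimensional ℝ E] [Nontrivial E] in
lemma actE_zero {w : E} (hw : w ∈ C) : actE act e 0 w = w := by
  rw [actE, hact.zero, e.right_inv (hC.target hw)]

omit [FiniteDimensional ℝ E] [Nontrivial E] in
lemma actE_actE {w : E} (hw : w ∈ C) (h k : ℤ_[p]) :
    actE act e h (actE act e k w) = actE act e (h + k) w := by
  simp only [actE, e.left_inv (hC.source k w hw), hact.add]

omit [Nontrivial E] in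
lemma continuousOn_integral_param {Y : Type*} [NormedAddCommGroup Y] [NormedSpace ℝ Y]
    [FiniteDimensional ℝ Y]
    {g : ℤ_[p] → E → Y} (hg : ContinuousOn (fun z : ℤ_[p] × E => g z.1 z.2) (univ ×ˢ C)) :
    ContinuousOn (fun w => ∫ h, g h w ∂haarZp p) C := by
  haveI : CompactSpace C := isCompact_iff_compactSpace.1 hC.compact
  rw [continuousOn_iff_continuous_domRestrict]
  have hc : Continuous (fun z : C × ℤ_[p] => g z.2 z.1.1) :=
    hg.comp_continuous (continuous_snd.prodMk (continuous_subtype_val.comp continuous_fst))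
      fun z => ⟨mem_univ _, z.1.2⟩
  have := continuous_parametric_integral_of_continuous (μ := haarZp p)
    (f := fun (w : C) h => g h w.1) hc isCompact_univ
  simp only [setIntegral_univ] at this
  exact this

omit [Nontrivial E] in
lemma continuousOn_avg : ContinuousOn (avg act e) C :=
  continuousOn_integral_param hact hC (continuousOn_actE hact hC)

omit [Nontrivial E] in
lemma continuousOn_tw {a : E → ℂ} (ha : Continuous a) : ContinuousOn (tw act e a) C :=
  continuousOn_integral_param hact hC (g := fun h w => zchar (-h) * a (actE act e h w))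
    (((continuous_zchar.comp (continuous_neg.comp continuous_fst)).continuousOn).mul
      (ha.comp_continuousOn (continuousOn_actE hact hC)))

omit [Nontrivial E] in
lemma avg_actE {w : E} (hw : w ∈ C) (k : ℤ_[p]) :
    avg act e (actE act e k w) = avg act e w := by
  simp only [avg, actE_actE hact hC hw]
  exact integral_add_right_eq_self (fun h => actE act e h w) k

omit [Nontrivial E] in
lemma tw_actE {w : E} (hw : w ∈ C) (a : E → ℂ) (k : ℤ_[p]) :
    tw act e a (actE act e k w) = zchar k * tw act e a w := by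
  simp only [tw, actE_actE hact hC hw]
  rw [← integral_const_mul,
    ← integral_add_right_eq_self (fun h => zchar k * (zchar (-h) * a (actE act e h w))) k]
  refine integral_congr_ae (Eventually.of_forall fun h => ?_)
  simp only [← mul_assoc, ← zchar_add]
  congr 2
  abel

omit [Nontrivial E] in
lemma avg_fixed {w : E} (hfix : ∀ h, actE act e h w = w) : avg act e w = w := by
  simp [avg, hfix]

omit [FiniteDimensional ℝ E] [Nontrivial E] in
lemma fixed_of_actE [T2Space M] {w : E} (hw : w ∈ C) {k : ℤ_[p]} (hk : ‖k‖ = 1)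
    (h : actE act e k w = w) (l : ℤ_[p]) : act l (e.symm w) = e.symm w := by
  refine hact.fixed_of_unit hk ?_ l
  have h1 : e.symm (actE act e k w) = act k (e.symm w) := e.left_inv (hC.source k w hw)
  rwa [h, eq_comm] at h1

omit [NormedSpace ℝ E] [FiniteDimensional ℝ E] [Nontrivial E] hact hC in
/-- A Lipschitz cutoff between a set and points far away from it. -/
lemma exists_cutoff (T : Set E) {δ : ℝ} (hδ : 0 < δ) (hT : T.Nonempty) :
    ∃ a : E → ℂ, (∃ K, LipschitzWith K a) ∧ (∀ z ∈ T, a z = 1) ∧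
      ∀ z, (∀ t ∈ T, δ ≤ dist z t) → a z = 0 := by
  let f : E → ℝ := fun z => max (1 - δ⁻¹ * infDist z T) 0
  refine ⟨fun z => (f z : ℂ), ⟨NNReal.mk δ⁻¹ (inv_pos.2 hδ).le,
    LipschitzWith.of_dist_le_mul fun x y => ?_⟩, fun z hz => ?_, fun z hz => ?_⟩
  · rw [Complex.dist_eq, ← Complex.ofReal_sub, Complex.norm_real, Real.norm_eq_abs]
    refine (abs_max_sub_max_le_abs _ _ 0).trans ?_
    rw [show (1 - δ⁻¹ * infDist x T) - (1 - δ⁻¹ * infDist y T)
      = δ⁻¹ * (infDist y T - infDist x T) by ring, abs_mul, abs_of_pos (inv_pos.2 hδ)]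
    refine mul_le_mul_of_nonneg_left ?_ (inv_pos.2 hδ).le
    rw [abs_sub_comm, ← Real.dist_eq]
    simpa using (lipschitz_infDist_pt T).dist_le_mul x y
  · simp [f, infDist_zero_of_mem hz]
  · have h1 : δ ≤ infDist z T := (le_infDist hT).2 hz
    have h2 : 1 ≤ δ⁻¹ * infDist z T := by
      rw [← inv_mul_cancel₀ hδ.ne']
      exact mul_le_mul_of_nonneg_left h1 (inv_pos.2 hδ).le
    simp [f, max_eq_right (by linarith : 1 - δ⁻¹ * infDist z T ≤ 0)]

omit [Nontrivial E] in
/-- Test functions detect points which are not fixed. -/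
lemma exists_test [T2Space M] {w : E} (hw : w ∈ C) (hne : actE act e 1 w ≠ w) :
    ∃ a : E → ℂ, (∃ K, LipschitzWith K a) ∧ tw act e a w ≠ 0 := by
  classical
  let o : ℤ_[p] → E := fun h => actE act e h w
  have ho : Continuous o := continuous_actE_param hact hC hw
  let S₀ : Set ℤ_[p] := {h | PadicInt.toZMod h = 0}
  have hS₀ : IsClopen S₀ := ⟨isLocallyConstant_toZMod.isClosed_fiber 0,
    isLocallyConstant_toZMod.isOpen_fiber 0⟩
  have hdis : Disjoint (o '' S₀) (o '' S₀ᶜ) := by
    refine disjoint_left.2 ?_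
    rintro _ ⟨h, hh, rfl⟩ ⟨k, hk, he⟩
    have he' : act k (e.symm w) = act h (e.symm w) :=
      e.injOn (hC.source k w hw) (hC.source h w hw) he
    have h1 : act (-h + k) (e.symm w) = e.symm w := by
      rw [hact.add, he', ← hact.add, neg_add_cancel, hact.zero]
    have h2 : ‖-h + k‖ = 1 := norm_eq_one_of_toZMod_ne (by
      rw [map_add, map_neg, show PadicInt.toZMod h = 0 from hh, neg_zero, zero_add]
      exact hk)
    have h3 : actE act e 1 w = w := by
      rw [actE, hact.fixed_of_unit h2 h1 1, e.right_inv (hC.target hw)]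
    exact hne h3
  obtain ⟨δ, hδ, hsep⟩ := (hdis.exists_thickenings (hS₀.1.isCompact.image ho)
    (hS₀.2.isClosed_compl.isCompact.image ho).isClosed)
  have h0 : (0 : ℤ_[p]) ∈ S₀ := map_zero (PadicInt.toZMod : ℤ_[p] →+* ZMod p)
  have hT : (o '' S₀).Nonempty := ⟨o 0, 0, h0, rfl⟩
  obtain ⟨a, haL, ha1, ha0⟩ := exists_cutoff (o '' S₀) hδ hT
  refine ⟨a, haL, ?_⟩
  have hval : ∀ h, zchar (-h) * a (actE act e h w) = S₀.indicator (fun _ => (1 : ℂ)) h := by
    intro h
    change zchar (-h) * a (o h) = _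
    by_cases hh : h ∈ S₀
    · have hz : PadicInt.toZMod h = 0 := hh
      rw [indicator_of_mem hh, ha1 _ (mem_image_of_mem o hh), mul_one, zchar, map_neg, hz,
        neg_zero, AddChar.map_zero_eq_one]
    · rw [indicator_of_notMem hh, ha0 _ fun t ht => ?_, mul_zero]
      by_contra hlt
      push Not at hlt
      exact disjoint_left.1 hsep (mem_thickening_iff.2 ⟨t, ht, hlt⟩)
        (self_subset_thickening hδ _ (mem_image_of_mem o hh))
  rw [tw, integral_congr_ae (Eventually.of_forall hval),
    integral_indicator_const _ hS₀.2.measurableSet]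
  simp only [Complex.real_smul, mul_one, ne_eq, Complex.ofReal_eq_zero]
  rw [measureReal_def, ENNReal.toReal_eq_zero_iff]
  push Not
  exact ⟨(hS₀.2.measure_pos _ ⟨0, map_zero _⟩).ne', measure_ne_top _ _⟩

omit [Nontrivial E] in
lemma tw_add_smul {a b : E → ℂ} (ha : Continuous a) (hb : Continuous b) (c : ℂ) {w : E}
    (hw : w ∈ C) :
    tw act e (fun z => a z + c * b z) w = tw act e a w + c * tw act e b w := by
  have h1 := continuous_actE_param hact hC hw
  simp only [tw, mul_add, mul_left_comm (zchar _) c]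
  rw [integral_add (integrable_of_continuous (by fun_prop))
    (integrable_of_continuous (by fun_prop)), integral_const_mul]

omit [Nontrivial E] in
lemma norm_tw_sub {a : E → ℂ} {K : ℝ≥0} (ha : LipschitzWith K a) {w v : E} (hw : w ∈ C)
    (hv : v ∈ C) : ‖tw act e a w - tw act e a v‖
      ≤ K * ∫ h, ‖actE act e h w - actE act e h v‖ ∂haarZp p := by
  have h1 := continuous_actE_param hact hC hw
  have h2 := continuous_actE_param hact hC hv
  have hac := ha.continuous
  simp only [tw]
  rw [← integral_sub (integrable_of_continuous (by fun_prop))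
    (integrable_of_continuous (by fun_prop)), ← integral_const_mul]
  refine norm_integral_le_of_norm_le (integrable_of_continuous (by fun_prop))
    (Eventually.of_forall fun h => ?_)
  rw [← mul_sub, norm_mul, norm_zchar, one_mul]
  exact ha.norm_sub_le _ _

omit [Nontrivial E] in
lemma norm_avg_sub {w v : E} (hw : w ∈ C) (hv : v ∈ C) :
    ‖avg act e w - avg act e v‖ ≤ ∫ h, ‖actE act e h w - actE act e h v‖ ∂haarZp p := by
  simp only [avg]
  rw [← integral_sub (integrable_of_continuous (continuous_actE_param hact hC hw))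
    (integrable_of_continuous (continuous_actE_param hact hC hv))]
  exact norm_integral_le_integral_norm _

/-- The averaged `(n+2)`-variation over arbitrarily fine covers vanishes. -/
def SmallVariation (act : ℤ_[p] → M → M) (e : OpenPartialHomeomorph M E) (C : Set E) : Prop :=
  ∀ η : ℝ≥0∞, 0 < η → ∃ (ι : Type) (_ : Countable ι) (B : ι → Set E), C ⊆ ⋃ i, B i ∧
    ∑' i, ∫⁻ h, (ediam (actE act e h '' (B i ∩ C))) ^ (finrank ℝ E + 2) ∂haarZp p < η

omit [Nontrivial E] in
lemma lowerSemicontinuous_ediam (S : Set E) (hS : S ⊆ C) :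
    LowerSemicontinuous fun h => ediam (actE act e h '' S) := by
  intro h c hc
  have hex : ∃ a ∈ S, ∃ b ∈ S, c < edist (actE act e h a) (actE act e h b) := by
    by_contra hne
    push Not at hne
    refine absurd hc (not_lt.2 (ediam_le ?_))
    rintro _ ⟨a, ha, rfl⟩ _ ⟨b, hb, rfl⟩
    exact hne a ha b hb
  obtain ⟨a, ha, b, hb, hc⟩ := hex
  have hcont : Continuous fun k => edist (actE act e k a) (actE act e k b) :=
    (continuous_actE_param hact hC (hS ha)).edist (continuous_actE_param hact hC (hS hb))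
  filter_upwards [hcont.continuousAt.preimage_mem_nhds (Ioi_mem_nhds hc)] with k hk
  exact lt_of_lt_of_le hk (edist_le_ediam_of_mem ⟨a, ha, rfl⟩ ⟨b, hb, rfl⟩)

omit hact hC in
lemma lintegral_pow_le {Ω : Type*} [MeasurableSpace Ω] (μ : Measure Ω) [IsProbabilityMeasure μ]
    {f : Ω → ℝ≥0∞} (hf : AEMeasurable f μ) {m : ℕ} (hm : 2 ≤ m) :
    (∫⁻ x, f x ∂μ) ^ m ≤ ∫⁻ x, f x ^ m ∂μ := by
  have hm' : (1 : ℝ) < m := by exact_mod_cast hm
  have h := ENNReal.lintegral_mul_le_Lp_mul_Lq μ (Real.HolderConjugate.conjExponent hm') hf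
    (g := fun _ => 1) aemeasurable_const
  simp only [Pi.mul_apply, mul_one, ENNReal.one_rpow, lintegral_one, measure_univ,
    ENNReal.rpow_natCast] at h
  calc (∫⁻ x, f x ∂μ) ^ m ≤ ((∫⁻ x, f x ^ m ∂μ) ^ (1 / (m : ℝ))) ^ m := by gcongr
    _ = _ := by
      rw [← ENNReal.rpow_natCast, ← ENNReal.rpow_mul, one_div_mul_cancel (by positivity),
        ENNReal.rpow_one]

omit hact hC in
lemma measure_le_ediam_pow {F : Type*} [NormedAddCommGroup F] [NormedSpace ℝ F]
    [FiniteDimensional ℝ F] [MeasurableSpace F] [BorelSpace F] (μ : Measure F)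
    [μ.IsAddHaarMeasure] (hdim : finrank ℝ F ≠ 0) (s : Set F) :
    μ s ≤ ediam s ^ finrank ℝ F * μ (closedBall (0 : F) 1) := by
  rcases s.eq_empty_or_nonempty with rfl | ⟨x, hx⟩
  · simp
  by_cases htop : ediam s = ⊤
  · rw [htop, ENNReal.top_pow hdim, ENNReal.top_mul (measure_closedBall_pos μ _ one_pos).ne']
    exact le_top
  obtain ⟨r, hr⟩ : ∃ r : ℝ≥0, (r : ℝ≥0∞) = ediam s :=
    ⟨(ediam s).toNNReal, ENNReal.coe_toNNReal htop⟩
  have hsub : s ⊆ closedBall x r := fun y hy => by
    have := edist_le_ediam_of_mem hy hx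
    rw [← hr, edist_le_coe, ← NNReal.coe_le_coe, coe_nndist] at this
    simpa using this
  refine (measure_mono hsub).trans_eq ?_
  rw [Measure.addHaar_closedBall' μ x (NNReal.coe_nonneg r), ← hr, ← NNReal.coe_pow, ENNReal.ofReal_coe_nnreal,
    ENNReal.coe_pow]

/-- Images by maps controlled by the averaged distance are null. -/
lemma null_image {F : Type*} [NormedAddCommGroup F] [NormedSpace ℝ F]
    [FiniteDimensional ℝ F] [MeasurableSpace F] [BorelSpace F] (μ : Measure F)
    [μ.IsAddHaarMeasure] (hdim : finrank ℝ F = finrank ℝ E + 2)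
    (hvar : SmallVariation act e C) {S : Set E} (hS : S ⊆ C) {f : E → F} {κ : ℝ≥0}
    (hf : ∀ w ∈ S, ∀ v ∈ S,
      ‖f w - f v‖ ≤ κ * ∫ h, ‖actE act e h w - actE act e h v‖ ∂haarZp p) :
    μ (f '' S) = 0 := by
  set m := finrank ℝ E + 2
  let L : ℝ≥0∞ := (κ : ℝ≥0∞) ^ m * μ (closedBall (0 : F) 1)
  have hL : L ≠ ⊤ := ENNReal.mul_ne_top (ENNReal.pow_ne_top ENNReal.coe_ne_top)
    (isCompact_closedBall _ _).measure_lt_top.ne
  refine le_antisymm (ENNReal.le_of_forall_pos_le_add fun ε hε _ => ?_) zero_le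
  rw [zero_add]
  obtain ⟨ι, hι, B, hB, hsum⟩ := hvar ((ε : ℝ≥0∞) / (L + 1))
    (ENNReal.div_pos (by exact_mod_cast hε.ne') (by simp [hL]))
  have hpiece : ∀ i, μ (f '' (S ∩ B i))
      ≤ L * ∫⁻ h, (ediam (actE act e h '' (B i ∩ C))) ^ m ∂haarZp p := by
    intro i
    have hd : ediam (f '' (S ∩ B i))
        ≤ κ * ∫⁻ h, ediam (actE act e h '' (B i ∩ C)) ∂haarZp p := by
      refine ediam_le ?_
      rintro _ ⟨w, hw, rfl⟩ _ ⟨v, hv, rfl⟩
      rw [edist_dist, dist_eq_norm]
      refine (ENNReal.ofReal_le_ofReal (hf w hw.1 v hv.1)).trans ?_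
      rw [ENNReal.ofReal_mul (NNReal.coe_nonneg κ), ENNReal.ofReal_coe_nnreal]
      refine mul_le_mul' le_rfl ?_
      have h1 := continuous_actE_param hact hC (hS hw.1)
      have h2 := continuous_actE_param hact hC (hS hv.1)
      rw [ofReal_integral_eq_lintegral_ofReal (integrable_of_continuous (by fun_prop))
        (Eventually.of_forall fun h => norm_nonneg _)]
      refine lintegral_mono fun h => ?_
      rw [← dist_eq_norm, ← edist_dist]
      exact edist_le_ediam_of_mem ⟨w, ⟨hw.2, hS hw.1⟩, rfl⟩ ⟨v, ⟨hv.2, hS hv.1⟩, rfl⟩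
    refine (measure_le_ediam_pow μ (by omega) _).trans ?_
    rw [hdim]
    calc ediam (f '' (S ∩ B i)) ^ m * μ (closedBall (0 : F) 1)
        ≤ ((κ : ℝ≥0∞) * ∫⁻ h, ediam (actE act e h '' (B i ∩ C)) ∂haarZp p) ^ m
          * μ (closedBall (0 : F) 1) := by gcongr
      _ = L * (∫⁻ h, ediam (actE act e h '' (B i ∩ C)) ∂haarZp p) ^ m := by
          rw [mul_pow]; ring
      _ ≤ _ := mul_le_mul' le_rfl (lintegral_pow_le _
          (lowerSemicontinuous_ediam hact hC _ inter_subset_right).measurable.aemeasurable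
          (Nat.le_add_left 2 _))
  calc μ (f '' S) ≤ μ (⋃ i, f '' (S ∩ B i)) := by
        refine measure_mono ?_
        rw [← image_iUnion, ← inter_iUnion]
        exact image_mono fun w hw => ⟨hw, hB (hS hw)⟩
    _ ≤ ∑' i, μ (f '' (S ∩ B i)) := measure_iUnion_le _
    _ ≤ L * ((ε : ℝ≥0∞) / (L + 1)) := by
        refine (ENNReal.tsum_le_tsum hpiece).trans ?_
        rw [ENNReal.tsum_mul_left]
        exact mul_le_mul' le_rfl hsum.le
    _ ≤ (L + 1) * ((ε : ℝ≥0∞) / (L + 1)) := mul_le_mul' le_self_add le_rfl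
    _ ≤ ε := ENNReal.mul_div_le

/-- One step of the combination of test functions. -/
lemma exists_combine [MeasurableSpace E] [BorelSpace E] (hvar : SmallVariation act e C)
    {a b : E → ℂ} {Ka Kb : ℝ≥0} (ha : LipschitzWith Ka a) (hb : LipschitzWith Kb b) :
    ∃ c : ℂ, ∀ᵐ y ∂(Measure.addHaar : Measure E), ∀ w ∈ C, avg act e w = y →
      (tw act e a w ≠ 0 ∨ tw act e b w ≠ 0) → tw act e a w + c * tw act e b w ≠ 0 := by
  let μ : Measure (ℂ × E) := (Measure.addHaar : Measure ℂ).prod (Measure.addHaar : Measure E)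
  have : μ.IsAddHaarMeasure := Measure.prod.instIsAddHaarMeasure _ _
  let f : E → ℂ × E := fun w => (-(tw act e a w / tw act e b w), avg act e w)
  have hdim : finrank ℝ (ℂ × E) = finrank ℝ E + 2 := by
    rw [Module.finrank_prod, Complex.finrank_real_complex, add_comm]
  obtain ⟨Ra, hRa⟩ := hC.compact.exists_bound_of_continuousOn (continuousOn_tw hact hC ha.continuous)
  obtain ⟨Rb, hRb⟩ := hC.compact.exists_bound_of_continuousOn (continuousOn_tw hact hC hb.continuous)
  have hnull : ∀ k : ℕ, μ (f '' {w ∈ C | 1 / ((k : ℝ) + 1) ≤ ‖tw act e b w‖}) = 0 := by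
    intro k
    let η : ℝ := 1 / ((k : ℝ) + 1)
    have hη : 0 < η := by positivity
    let κ : ℝ := 1 + ((Ka : ℝ) * |Rb| + |Ra| * Kb) / η ^ 2
    refine null_image hact hC μ hdim hvar (sep_subset _ _) (κ := NNReal.mk κ (by positivity)) ?_
    rintro w ⟨hw, hwb⟩ v ⟨hv, hvb⟩
    change η ≤ _ at hwb hvb
    set D := ∫ h, ‖actE act e h w - actE act e h v‖ ∂haarZp p
    have hD : 0 ≤ D := integral_nonneg fun _ => norm_nonneg _
    have h1 := norm_avg_sub hact hC hw hv
    have h2 := norm_tw_sub hact hC ha hw hv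
    have h3 := norm_tw_sub hact hC hb hw hv
    rw [NNReal.coe_mk]
    simp only [f, Prod.mk_sub_mk, Prod.norm_def]
    refine max_le ?_ (h1.trans (le_mul_of_one_le_left hD ?_))
    · have hwne : tw act e b w ≠ 0 := norm_pos_iff.1 (hη.trans_le hwb)
      have hvne : tw act e b v ≠ 0 := norm_pos_iff.1 (hη.trans_le hvb)
      set A := tw act e a w
      set A' := tw act e a v
      set B' := tw act e b v
      set Bw := tw act e b w
      have hnum : ‖A' * Bw - A * B'‖ ≤ ((Ka : ℝ) * |Rb| + |Ra| * Kb) * D := by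
        calc ‖A' * Bw - A * B'‖ = ‖(A' - A) * Bw + A * (Bw - B')‖ := by ring_nf
          _ ≤ ‖A' - A‖ * ‖Bw‖ + ‖A‖ * ‖Bw - B'‖ :=
              (norm_add_le _ _).trans (by rw [norm_mul, norm_mul])
          _ ≤ ((Ka : ℝ) * D) * |Rb| + |Ra| * ((Kb : ℝ) * D) := by
              have := (norm_sub_rev A' A).trans_le h2
              have hb' := (hRb w hw).trans (le_abs_self _)
              have ha' := (hRa w hw).trans (le_abs_self _)
              gcongr
          _ = _ := by ring
      have hden : η ^ 2 ≤ ‖B' * Bw‖ := by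
        rw [norm_mul, sq]; exact mul_le_mul hvb hwb hη.le (norm_nonneg _)
      calc ‖-(A / Bw) - -(A' / B')‖ = ‖A' * Bw - A * B'‖ / ‖B' * Bw‖ := by
            rw [← norm_div]; congr 1; field_simp; ring
        _ ≤ ((Ka : ℝ) * |Rb| + |Ra| * Kb) * D / η ^ 2 := by gcongr
        _ ≤ κ * D := by
            have : κ * D = D + ((Ka : ℝ) * |Rb| + |Ra| * Kb) * D / η ^ 2 := by
              simp only [κ]; ring
            linarith
    · exact le_add_of_nonneg_right (by positivity)
  let Bad : Set (ℂ × E) := ⋃ k : ℕ, f '' {w ∈ C | 1 / ((k : ℝ) + 1) ≤ ‖tw act e b w‖}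
  have hBad : μ Bad = 0 := measure_iUnion_null hnull
  have hae : ∀ᵐ z ∂μ, z ∉ Bad := measure_eq_zero_iff_ae_notMem.1 hBad
  obtain ⟨c, hc⟩ := (Measure.ae_ae_of_ae_prod hae).exists
  refine ⟨c, hc.mono fun y hy w hw hwy hor hzero => ?_⟩
  rcases eq_or_ne (tw act e b w) 0 with h | h
  · rcases hor with h' | h'
    · rw [h, mul_zero, add_zero] at hzero
      exact h' hzero
    · exact h' h
  · obtain ⟨k, hk⟩ := exists_nat_one_div_lt (norm_pos_iff.2 h)
    refine hy (mem_iUnion.2 ⟨k, w, ⟨hw, hk.le⟩, ?_⟩)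
    simp only [f, hwy, Prod.mk.injEq, and_true]
    rw [eq_neg_of_add_eq_zero_left hzero, neg_div, neg_neg, mul_div_assoc, div_self h, mul_one]

end

/-- A small action with vanishing variation fixes a ball pointwise. -/
theorem fixed_ball [T2Space M] (hact : ZpAct p act) (hC : ChartSet act e C) (hconv : Convex ℝ C)
    (hvar : SmallVariation act e C) {V : Set E} (hV : IsOpen V) {ρ : ℝ}
    (hρV : ball (0 : E) ρ ⊆ V) (hVC : closure V ⊆ C)
    (hP : ∀ i : ℕ, ∀ x ∈ closure V, ∀ τ ∈ Icc (0 : ℝ) 1,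
      actE act e (i : ℤ_[p]) ((1 - τ) • x + τ • actE act e 1 x) ∈ C)
    {J : Set ℕ}
    (hN : ∀ ε > 0, ∃ j ∈ J, ∀ x ∈ closure V,
      ‖actE act e ((p : ℤ_[p]) ^ j) x - x‖ < ε)
    (hb : ∀ j ∈ J, ∀ x ∈ frontier V, ∀ i, i < p ^ j → ∀ τ ∈ Icc (0 : ℝ) 1,
      ∀ t ∈ Icc (0 : ℝ) 1, ∀ s ∈ Icc (0 : ℝ) 1, ∀ r ∈ Icc (0 : ℝ) 1,
        ρ ≤ ‖(1 - r) • avg act e x + r • avg act e
          ((1 - s) • actE act e (i : ℤ_[p]) ((1 - τ) • x + τ • actE act e 1 x)
            + s • ((1 - t) • x + t • actE act e ((p : ℤ_[p]) ^ j) x))‖)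
    (hb' : ∀ x ∈ frontier V, ∀ s ∈ Icc (0 : ℝ) 1, ρ ≤ ‖(1 - s) • avg act e x + s • x‖) :
    ∀ y ∈ ball (0 : E) ρ, ∀ h, act h (e.symm y) = e.symm y := by
  classical
  borelize E
  intro y₀ hy₀
  have hyC : ball (0 : E) ρ ⊆ C := hρV.trans (subset_closure.trans hVC)
  by_contra hmov
  have hne₀ : actE act e 1 y₀ ≠ y₀ := fun he =>
    hmov (fixed_of_actE hact hC (hyC hy₀) (by simp) he)
  have hO : IsOpen (ball (0 : E) ρ ∩ {w | actE act e 1 w ≠ w}) :=
    (((continuousOn_actE_point hact hC 1).mono hyC).sub continuousOn_id).isOpen_inter_preimage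
      isOpen_ball (isOpen_compl_singleton (x := (0 : E))) |> fun h => by
        convert h using 2
        ext w
        simp [sub_eq_zero]
  obtain ⟨r, hr, hrO⟩ := Metric.isOpen_iff.1 hO y₀ ⟨hy₀, hne₀⟩
  let Y := closedBall y₀ (r / 2)
  have hYO : Y ⊆ ball (0 : E) ρ ∩ {w | actE act e 1 w ≠ w} :=
    (closedBall_subset_ball (half_lt_self hr)).trans hrO
  let K := C ∩ avg act e ⁻¹' Y
  have hK : IsCompact K := hC.compact.of_isClosed_subset
    ((continuousOn_avg hact hC).preimage_isClosed_of_isClosed hC.compact.isClosed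
      isClosed_closedBall) inter_subset_left
  have hKne : ∀ w ∈ K, ∃ a : E → ℂ, (∃ L, LipschitzWith L a) ∧ tw act e a w ≠ 0 := by
    rintro w ⟨hw, hwY⟩
    refine exists_test hact hC hw fun he => ?_
    have hfix : ∀ h, actE act e h w = w := fun h => by
      rw [actE, fixed_of_actE hact hC hw (by simp) he h, e.right_inv (hC.target hw)]
    have := (hYO hwY).2
    rw [avg_fixed hact hC hfix] at this
    exact this he
  choose! a haL ha using hKne
  obtain ⟨t, htK, ht⟩ := hK.elim_nhdsWithin_subcover (fun w => {v | tw act e (a w) v ≠ 0})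
    fun w hw => by
      have hc : ContinuousWithinAt (tw act e (a w)) K w :=
        ((continuousOn_tw hact hC (haL w hw).choose_spec.continuous) w hw.1).mono inter_subset_left
      exact hc.preimage_mem_nhdsWithin (isOpen_ne.mem_nhds (ha w hw))
  have hcomb : ∀ T : Finset E, (∀ w ∈ T, w ∈ K) → ∃ b : E → ℂ, (∃ L, LipschitzWith L b) ∧
      ∀ᵐ y ∂(Measure.addHaar : Measure E), ∀ v ∈ C, avg act e v = y →
        (∃ w ∈ T, tw act e (a w) v ≠ 0) → tw act e b v ≠ 0 := by
    intro T
    induction T using Finset.induction with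
    | empty => exact fun _ => ⟨0, ⟨0, LipschitzWith.const _⟩, Eventually.of_forall (by simp)⟩
    | @insert w T hwT ih =>
      intro hsub
      obtain ⟨b, ⟨L, hL⟩, hb0⟩ := ih fun v hv => hsub v (Finset.mem_insert_of_mem hv)
      obtain ⟨L', hL'⟩ := haL w (hsub w (Finset.mem_insert_self _ _))
      obtain ⟨c, hc⟩ := exists_combine hact hC hvar hL hL'
      have hlip : ∃ L'', LipschitzWith L'' fun z => b z + c * a w z :=
        ⟨L + ‖c‖₊ * L', hL.add (LipschitzWith.of_dist_le_mul fun x y => by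
          rw [dist_eq_norm, ← mul_sub, norm_mul, NNReal.coe_mul, coe_nnnorm, mul_assoc]
          gcongr
          simpa [dist_eq_norm] using hL'.dist_le_mul x y)⟩
      refine ⟨_, hlip, ?_⟩
      filter_upwards [hb0, hc] with y h1 h2 v hv hvy hex
      rw [tw_add_smul hact hC hL.continuous hL'.continuous c hv]
      refine h2 v hv hvy ?_
      obtain ⟨w', hw', hne⟩ := hex
      rcases Finset.mem_insert.1 hw' with rfl | hw'
      · exact Or.inr hne
      · exact Or.inl (h1 v hv hvy ⟨w', hw', hne⟩)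
  obtain ⟨b, ⟨L, hL⟩, hgood⟩ := hcomb t htK
  obtain ⟨y, hyY, hy⟩ : ∃ y ∈ Y, ∀ v ∈ C, avg act e v = y →
      (∃ w ∈ t, tw act e (a w) v ≠ 0) → tw act e b v ≠ 0 := by
    by_contra hnone
    push Not at hnone
    have hsub : Y ⊆ {z | ¬ ∀ v ∈ C, avg act e v = z →
        (∃ w ∈ t, tw act e (a w) v ≠ 0) → tw act e b v ≠ 0} := fun z hz => by
      simp only [mem_setOf]; push Not; exact hnone z hz
    have := measure_mono_null hsub (ae_iff.1 hgood)
    exact (measure_closedBall_pos (Measure.addHaar : Measure E) y₀ (half_pos hr)).ne' this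
  have hyρ : ‖y‖ < ρ := by simpa using (hYO hyY).1
  have hu0 : ∀ v ∈ C, avg act e v = y → tw act e b v ≠ 0 := fun v hv hvy => by
    refine hy v hv hvy ?_
    have := ht (⟨hv, by simpa [hvy] using hyY⟩ : v ∈ K)
    simp only [mem_iUnion, exists_prop] at this
    exact this
  have hiter : ∀ x ∈ closure V, actE act e 1 x ∈ C := fun x hx => by
    have := hP 0 x hx 1 (by simp)
    simp only [Nat.cast_zero, sub_self, zero_smul, one_smul, zero_add] at this
    rw [actE_actE hact hC (hVC hx), zero_add] at this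
    exact this
  have D : CoreData p C V (avg act e) (tw act e b) (fun i : ℕ => actE act e (i : ℤ_[p])) y :=
    { hp := hp.out
      hC := hC.compact
      hconv := hconv
      hV := hV
      hVC := hVC
      hφ := continuousOn_avg hact hC
      hu := continuousOn_tw hact hC hL.continuous
      hA := fun i => continuousOn_actE_point hact hC _
      hA0 := fun x hx => by simpa using actE_zero hact hC hx
      hP := fun i x hx τ hτ => by simpa using hP i x hx τ hτ
      hcomp := fun i x hx => by simpa using actE_actE hact hC (hVC hx) (i : ℤ_[p]) 1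
      hφA := fun i w hw _ => avg_actE hact hC hw _
      huA := fun i w hw _ => by rw [tw_actE hact hC hw, zchar_natCast]
      hy := hu0 }
  refine D.false_of_data (hρV (by simpa using hyρ)) (J := J) ?_ ?_ ?_
  · intro ε hε
    simpa using hN ε hε
  · intro j hj x hx i hi τ hτ t ht s hs r hr he
    have := hb j hj x hx i hi τ hτ t ht s hs r hr
    simp only [CoreData.seg, Nat.cast_pow, Nat.cast_one] at he
    rw [he] at this
    linarith
  · intro x hx s hs he
    have := hb' x hx s hs
    rw [he] at this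
    linarith

end Vale.Agent.P228
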