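import Vale.Agent.P228.Var.Global

/-!
A Newman type step and the passage to connected manifolds.
-/

noncomputable section

open Set Filter MeasureTheory Metric Function Module
open scoped Topology NNReal ENNReal RealInnerProductSpace

namespace Vale.Agent.P228

variable {p : ℕ} [Fact p.Prime] {M : Type*} [TopologicalSpace M] [T2Space M]
  {act : ℤ_[p] → M → M}

section Half

variable {E : Type*} [NormedAddCommGroup E] [InnerProductSpace ℝ E] [FiniteDimensional ℝ E]
  [Nontrivial E]

lemma conv_neg {x y t : ℝ} (hx : x < 0) (hy : y < 0) (ht : t ∈ Icc (0 : ℝ) 1) :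
    (1 - t) * x + t * y < 0 :=
  (convex_Iio (0 : ℝ)) hx hy (sub_nonneg.2 ht.2) ht.1 (sub_add_cancel 1 t)

omit [FiniteDimensional ℝ E] [Nontrivial E] in
lemma integral_inner_neg {f : ℤ_[p] → E} (hf : Continuous f) (a : E) [CompleteSpace E]
    (h : ∀ k, ⟪a, f k⟫ < 0) : ⟪a, ∫ k, f k ∂haarZp p⟫ < 0 := by
  rw [← integral_inner (integrable_of_continuous hf) a]
  have hc : Continuous fun k => -⟪a, f k⟫ := (continuous_const.inner hf).neg
  have : 0 < ∫ k, -⟪a, f k⟫ ∂haarZp p := hc.integral_pos_of_hasCompactSupport_nonneg_nonzero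
    (x := 0) (HasCompactSupport.of_compactSpace _) (fun k => by
      have := h k
      show (0 : ℝ) ≤ -⟪a, f k⟫
      linarith) (by linarith [h 0])
  rw [integral_neg] at this
  linarith

/-- A fixed half ball at a fixed point forces fixedness of a full neighbourhood. -/
theorem fixed_near_of_halfBall (hact : ZpAct p act) {e : OpenPartialHomeomorph M E}
    (h0 : (0 : E) ∈ e.target) {a : E} (ha : a ≠ 0) {R : ℝ} (hR : 0 < R)
    (hRt : closedBall (0 : E) R ⊆ e.target)
    (hRs : ∀ w ∈ closedBall (0 : E) R, ∀ k, act k (e.symm w) ∈ e.source)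
    {m : ℕ} (hfin : ∀ w ∈ closedBall (0 : E) R, ∀ k,
      act ((p : ℤ_[p]) ^ m * k) (e.symm w) = e.symm w)
    (hhalf : ∀ w ∈ closedBall (0 : E) R, 0 ≤ ⟪a, w⟫ → ∀ k, act k (e.symm w) = e.symm w)
    (hvar : SmallVariation act e (closedBall (0 : E) R)) :
    ∀ᶠ w in 𝓝 (0 : E), ∀ k, act k (e.symm w) = e.symm w := by
  have hfix0 : ∀ k, act k (e.symm 0) = e.symm 0 :=
    hhalf 0 (mem_closedBall_self hR.le) (by simp)
  obtain ⟨R4, hR4, hR4R, -, hR4o⟩ := exists_orbit_ball hact e h0 hfix0 hR
  obtain ⟨R3, hR3, hR3R, -, hR3o⟩ := exists_orbit_ball hact e h0 hfix0 hR4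
  obtain ⟨R2, hR2, hR2R, -, hR2o⟩ := exists_orbit_ball hact e h0 hfix0 hR3
  set C := closedBall (0 : E) R with hCdef
  have hCS : ChartSet act e C := ⟨isCompact_closedBall _ _, hRt, fun k w hw => hRs w hw k⟩
  have hconv : Convex ℝ C := convex_closedBall _ _
  have hmem : ∀ {w : E}, ‖w‖ ≤ R → w ∈ C := fun hw => by simpa [hCdef] using hw
  let V := ball (0 : E) R2
  have hclV : ∀ z ∈ closure V, ‖z‖ ≤ R2 := fun z hz => by
    simpa using closure_ball_subset_closedBall hz
  have hfrV : ∀ z ∈ frontier V, ‖z‖ = R2 := fun z hz => by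
    simpa using frontier_ball_subset_sphere hz
  -- orbit bounds
  have horb : ∀ {r s : ℝ}, (∀ w ∈ closedBall (0 : E) r, ∀ k,
      act k (e.symm w) ∈ e.source ∧ ‖e (act k (e.symm w))‖ < s) →
      ∀ w : E, ‖w‖ ≤ r → ∀ k, ‖actE act e k w‖ < s := fun h w hw k =>
    (h w (by simpa using hw) k).2
  have hseg : ∀ z ∈ closure V, ∀ τ ∈ Icc (0 : ℝ) 1,
      ‖(1 - τ) • z + τ • actE act e 1 z‖ ≤ R3 := by
    intro z hz τ hτ
    have h1 := horb hR2o z (hclV z hz) 1
    have h2 := hclV z hz
    refine (norm_add_le _ _).trans ?_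
    rw [norm_smul, norm_smul, Real.norm_eq_abs, Real.norm_eq_abs,
      abs_of_nonneg (by linarith [hτ.2] : (0:ℝ) ≤ 1 - τ), abs_of_nonneg hτ.1]
    nlinarith [hτ.1, hτ.2]
  -- the fixed dichotomy
  have hfixw : ∀ w ∈ C, ∀ k, act k (e.symm w) = e.symm w → actE act e k w = w := fun w hw k h => by
    rw [actE, h, e.right_inv (hRt hw)]
  have hneg : ∀ w : E, ‖w‖ ≤ R4 → ⟪a, w⟫ < 0 → ∀ k, ⟪a, actE act e k w⟫ < 0 := by
    intro w hw hwneg k
    by_contra hge
    push Not at hge
    have hwC := hmem (hw.trans hR4R)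
    have hkC : actE act e k w ∈ C := hmem (horb hR4o w hw k).le
    have hk := hfixw _ hkC (-k) (hhalf _ hkC hge (-k))
    rw [actE_actE hact hCS hwC, neg_add_cancel, actE_zero hact hCS hwC] at hk
    rw [← hk] at hge
    linarith
  have havg : ∀ w : E, ‖w‖ ≤ R4 → ⟪a, w⟫ < 0 → ⟪a, avg act e w⟫ < 0 := fun w hw hwneg =>
    integral_inner_neg (continuous_actE_param hact hCS (hmem (hw.trans hR4R))) a
      (hneg w hw hwneg)
  have hzero : ∀ z ∈ frontier V, 0 ≤ ⟪a, z⟫ → ∀ k, actE act e k z = z := fun z hz hge k =>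
    hfixw z (hmem (by linarith [hfrV z hz])) k (hhalf z (hmem (by linarith [hfrV z hz])) hge k)
  have hAfin : ∀ z ∈ closure V, actE act e ((p : ℤ_[p]) ^ m) z = z := by
    intro z hz
    have hzC : z ∈ C := hmem (by linarith [hclV z hz])
    refine hfixw z hzC _ ?_
    simpa using hfin z hzC 1
  -- positivity on the frontier
  let comb : ℕ → E × ℝ × ℝ × ℝ × ℝ → E := fun i w =>
    (1 - w.2.2.2.1) • actE act e (i : ℤ_[p]) ((1 - w.2.1) • w.1 + w.2.1 • actE act e 1 w.1)
      + w.2.2.2.1 • ((1 - w.2.2.1) • w.1 + w.2.2.1 • w.1)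
  let S : Set (E × ℝ × ℝ × ℝ × ℝ) := frontier V ×ˢ Icc (0 : ℝ) 1 ×ˢ Icc (0 : ℝ) 1 ×ˢ
    Icc (0 : ℝ) 1 ×ˢ Icc (0 : ℝ) 1
  have hScompact : IsCompact S :=
    ((isCompact_closedBall (0 : E) R2).of_isClosed_subset isClosed_frontier fun z hz => by
      simp [hfrV z hz]).prod (isCompact_Icc.prod (isCompact_Icc.prod
        (isCompact_Icc.prod isCompact_Icc)))
  let val : ℕ → E × ℝ × ℝ × ℝ × ℝ → E := fun i w =>
    (1 - w.2.2.2.2) • avg act e w.1 + w.2.2.2.2 • avg act e (comb i w)
  have hcombR : ∀ i, ∀ w ∈ S, ‖comb i w‖ ≤ R4 := by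
    rintro i ⟨z, τ, t, s, r⟩ ⟨hz, hτ, ht, hs, -⟩
    have h1 := horb hR3o _ (hseg z (frontier_subset_closure hz) τ hτ) (i : ℤ_[p])
    simp only [comb]
    rw [show (1 - t) • z + t • z = z by module]
    refine (norm_add_le _ _).trans ?_
    rw [norm_smul, norm_smul, Real.norm_eq_abs, Real.norm_eq_abs,
      abs_of_nonneg (by linarith [hs.2] : (0:ℝ) ≤ 1 - s), abs_of_nonneg hs.1]
    nlinarith [hs.1, hs.2, hfrV z hz]
  have hvalne : ∀ i, ∀ w ∈ S, val i w ≠ 0 := by
    rintro i ⟨z, τ, t, s, r⟩ hw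
    obtain ⟨hz, hτ, ht, hs, hr⟩ := hw
    have hzR : ‖z‖ = R2 := hfrV z hz
    simp only [val, comb]
    rw [show (1 - t) • z + t • z = z by module]
    rcases le_or_gt 0 ⟪a, z⟫ with hge | hlt
    · have hfz := hzero z hz hge
      rw [hfz, show (1 - τ) • z + τ • z = z by module, hfz,
        show (1 - s) • z + s • z = z by module, avg_fixed hact hCS hfz,
        show (1 - r) • z + r • z = z by module]
      intro h
      rw [h, norm_zero] at hzR
      linarith
    · intro h
      have h1 : ⟪a, (1 - τ) • z + τ • actE act e 1 z⟫ < 0 := by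
        rw [inner_add_right, real_inner_smul_right, real_inner_smul_right]
        exact conv_neg hlt (hneg z (by linarith) hlt 1) hτ
      have h2 := hneg _ ((hseg z (frontier_subset_closure hz) τ hτ).trans hR3R) h1 (i : ℤ_[p])
      have h3 : ⟪a, (1 - s) • actE act e (i : ℤ_[p]) ((1 - τ) • z + τ • actE act e 1 z) + s • z⟫
          < 0 := by
        rw [inner_add_right, real_inner_smul_right, real_inner_smul_right]
        exact conv_neg h2 hlt hs
      have hR := hcombR i (z, τ, t, s, r) ⟨hz, hτ, ht, hs, hr⟩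
      simp only [comb] at hR
      rw [show (1 - t) • z + t • z = z by module] at hR
      have h4 := havg _ hR h3
      have h5 := havg z (by linarith) hlt
      have := congrArg (fun v => ⟪a, v⟫) h
      simp only [inner_add_right, real_inner_smul_right, inner_zero_right] at this
      linarith [conv_neg h5 h4 hr]
  have hcont : ∀ i, ContinuousOn (val i) S := by
    intro i
    have hA : ∀ k, ContinuousOn (actE act e k) C := continuousOn_actE_point hact hCS
    have hs1 : ContinuousOn (fun w : E × ℝ × ℝ × ℝ × ℝ =>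
        (1 - w.2.1) • w.1 + w.2.1 • actE act e 1 w.1) S :=
      continuousOn_lerp (continuous_fst.comp continuous_snd).continuousOn continuousOn_fst
        ((hA 1).comp continuousOn_fst fun w hw => hmem (by linarith [hfrV _ hw.1]))
    have hs2 : ContinuousOn (comb i) S :=
      continuousOn_lerp
        (continuous_fst.comp (continuous_snd.comp (continuous_snd.comp continuous_snd))).continuousOn
        ((hA (i : ℤ_[p])).comp hs1 fun w hw => hmem
          (((hseg w.1 (frontier_subset_closure hw.1) w.2.1 hw.2.1).trans hR3R).trans hR4R))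
        (continuousOn_lerp (continuous_fst.comp (continuous_snd.comp continuous_snd)).continuousOn
          continuousOn_fst continuousOn_fst)
    exact continuousOn_lerp
      (continuous_snd.comp (continuous_snd.comp (continuous_snd.comp continuous_snd))).continuousOn
      ((continuousOn_avg hact hCS).comp continuousOn_fst fun w hw =>
        hmem (by linarith [hfrV _ hw.1]))
      ((continuousOn_avg hact hCS).comp hs2 fun w hw => hmem ((hcombR i w hw).trans hR4R))
  let T : Set (ℕ × E × ℝ × ℝ × ℝ × ℝ) := ((Finset.range (p ^ m)) : Set ℕ) ×ˢ S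
  have hbound : ∀ i : Fin (p ^ m), ∃ ρ > 0, ∀ w ∈ S, ρ ≤ ‖val i w - 0‖ := fun i =>
    exists_dist_lower_bound hScompact (hcont i) (hvalne i)
  choose ρi hρi hρib using hbound
  have hneI : (Finset.univ : Finset (Fin (p ^ m))).Nonempty :=
    ⟨⟨0, pow_pos (Fact.out : p.Prime).pos m⟩, Finset.mem_univ _⟩
  let ρ0 := Finset.univ.inf' hneI ρi
  have hρ0 : 0 < ρ0 := (Finset.lt_inf'_iff hneI).2 fun i _ => hρi i
  obtain ⟨ρ1, hρ1, hρ1b⟩ := exists_dist_lower_bound (q := (0 : E))
    (((isCompact_closedBall (0 : E) R2).of_isClosed_subset (isClosed_frontier (s := V)) fun z hz => by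
      simp [hfrV z hz]).prod (isCompact_Icc (a := (0 : ℝ)) (b := 1)))
    (f := fun w : E × ℝ => (1 - w.2) • avg act e w.1 + w.2 • w.1)
    (continuousOn_lerp continuousOn_snd ((continuousOn_avg hact hCS).comp continuousOn_fst
      fun w hw => hmem (by linarith [hfrV _ hw.1])) continuousOn_fst) (by
      rintro ⟨z, s⟩ ⟨hz, hs⟩ h
      rcases le_or_gt 0 ⟪a, z⟫ with hge | hlt
      · have hfz := hzero z hz hge
        simp only [avg_fixed hact hCS hfz] at h
        rw [show (1 - s) • z + s • z = z by module] at h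
        have := hfrV z hz
        rw [h, norm_zero] at this
        linarith
      · have h5 := havg z (by linarith [hfrV z hz]) hlt
        have := congrArg (fun v => ⟪a, v⟫) h
        simp only [inner_add_right, real_inner_smul_right, inner_zero_right] at this
        linarith [conv_neg h5 hlt hs])
  let ρ := min R2 (min ρ0 ρ1)
  have hρ : 0 < ρ := lt_min hR2 (lt_min hρ0 hρ1)
  have hmain := fixed_ball hact hCS hconv hvar (V := V) (ρ := ρ) isOpen_ball
    (ball_subset_ball (min_le_left _ _)) (fun z hz => hmem (by linarith [hclV z hz]))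
    (J := {m}) ?hP ?hN ?hb ?hb'
  · exact eventually_of_mem (ball_mem_nhds _ hρ) hmain
  case hP =>
    intro i z hz τ hτ
    exact hmem ((horb hR3o _ (hseg z hz τ hτ) (i : ℤ_[p])).le.trans hR4R)
  case hN =>
    intro ε hε
    refine ⟨m, rfl, fun z hz => ?_⟩
    rw [hAfin z hz, sub_self, norm_zero]
    exact hε
  case hb =>
    intro j hj z hz i hi τ hτ t ht s hs r hr
    obtain rfl : j = m := hj
    have h1 := hρib ⟨i, hi⟩ (z, τ, t, s, r) ⟨hz, hτ, ht, hs, hr⟩
    rw [hAfin z (frontier_subset_closure hz)]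
    simp only [val, comb, sub_zero] at h1
    refine le_trans ?_ h1
    exact (min_le_right _ _).trans ((min_le_left _ _).trans
      (Finset.inf'_le _ (Finset.mem_univ _)))
  case hb' =>
    intro z hz s hs
    have h1 := hρ1b (z, s) ⟨hz, hs⟩
    simp only [sub_zero] at h1
    exact le_trans ((min_le_right _ _).trans (min_le_right _ _)) h1

omit [FiniteDimensional ℝ E] [Nontrivial E] in
/-- Bending a ball to a half space. -/
def bend (a : E) (K : ℝ) : E ≃ₜ E where
  toFun v := v - (K * (‖v‖ ^ 2 * ‖a‖ ^ 2 - ⟪a, v⟫ ^ 2)) • a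
  invFun v := v + (K * (‖v‖ ^ 2 * ‖a‖ ^ 2 - ⟪a, v⟫ ^ 2)) • a
  left_inv v := by
    simp only
    generalize hc : K * (‖v‖ ^ 2 * ‖a‖ ^ 2 - ⟪a, v⟫ ^ 2) = c
    have hinv : K * (‖v - c • a‖ ^ 2 * ‖a‖ ^ 2 - ⟪a, v - c • a⟫ ^ 2) = c := by
      rw [← hc, norm_sub_sq_real, real_inner_smul_right, inner_sub_right, real_inner_smul_right,
        norm_smul, mul_pow, Real.norm_eq_abs, sq_abs, real_inner_self_eq_norm_sq,
        real_inner_comm v a]
      ring
    rw [hinv]; abel
  right_inv v := by
    simp only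
    generalize hc : K * (‖v‖ ^ 2 * ‖a‖ ^ 2 - ⟪a, v⟫ ^ 2) = c
    have hinv : K * (‖v + c • a‖ ^ 2 * ‖a‖ ^ 2 - ⟪a, v + c • a⟫ ^ 2) = c := by
      rw [← hc, norm_add_sq_real, real_inner_smul_right, inner_add_right, real_inner_smul_right,
        norm_smul, mul_pow, Real.norm_eq_abs, sq_abs, real_inner_self_eq_norm_sq,
        real_inner_comm v a]
      ring
    rw [hinv]; abel
  continuous_toFun := by fun_prop
  continuous_invFun := by fun_prop

end Half

variable {n : ℕ} [NeZero n] [ChartedSpace (EuclideanSpace ℝ (Fin n)) M]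

/-- The set of points near which an open subgroup acts trivially is closed. -/
theorem isClosed_interior_fixed (hact : ZpAct p act)
    (hv : ∀ a, VanishingVariation n (act a)) :
    IsClosed (interior {y : M | ∀ a, act a y = y}) := by
  have : Nontrivial (EuclideanSpace ℝ (Fin n)) :=
    Module.nontrivial_of_finrank_pos (R := ℝ)
      (by rw [finrank_euclideanSpace_fin]; exact Nat.pos_of_ne_zero (NeZero.ne n))
  set Fx := {y : M | ∀ a, act a y = y} with hFx
  have hFc : IsClosed Fx := by
    rw [hFx, setOf_forall]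
    exact isClosed_iInter fun a =>
      isClosed_eq (hact.cont.comp (Continuous.prodMk_right a)) continuous_id
  refine isClosed_of_closure_subset fun x hx => ?_
  by_contra hxn
  have hxF : x ∈ Fx := hFc.closure_subset (closure_mono interior_subset hx)
  obtain ⟨m, hm⟩ := exists_trivial_near hact hv x
  let e := chartAt (EuclideanSpace ℝ (Fin n)) x
  have hxs : x ∈ e.source := mem_chart_source _ _
  let w0 := e x
  have hsym : e.symm w0 = x := e.left_inv hxs
  have hnear : ∀ᶠ w in 𝓝 w0, w ∈ e.target ∧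
      (∀ a, act ((p : ℤ_[p]) ^ m * a) (e.symm w) = e.symm w) ∧
      ∀ a, act a (e.symm w) ∈ e.source := by
    have ht := e.map_source hxs
    refine (e.open_target.eventually_mem ht).and (Filter.Eventually.and ?_ ?_)
    · exact (e.continuousAt_symm ht).eventually (by rw [hsym]; exact hm)
    · have : ∀ᶠ w in 𝓝 w0, ∀ a ∈ (univ : Set ℤ_[p]), act a (e.symm w) ∈ e.source := by
        refine isCompact_univ.eventually_forall_of_forall_eventually fun a _ => ?_
        have hs : ContinuousAt
            (fun z : EuclideanSpace ℝ (Fin n) × ℤ_[p] => act z.2 (e.symm z.1)) (w0, a) :=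
          hact.cont.continuousAt.comp (continuousAt_snd.prodMk
            ((e.continuousAt_symm ht).comp
              (f := fun z : EuclideanSpace ℝ (Fin n) × ℤ_[p] => z.1) (x := (w0, a))
              continuousAt_fst))
        refine hs.preimage_mem_nhds (e.open_source.mem_nhds ?_)
        show act a (e.symm w0) ∈ e.source
        rw [hsym, hxF a]; exact hxs
      exact this.mono fun w hw a => hw a (mem_univ a)
  obtain ⟨R0, hR0, hR0s⟩ := Metric.nhds_basis_closedBall.mem_iff.1 hnear
  -- a centre near `x`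
  let U : Set (EuclideanSpace ℝ (Fin n)) := ball w0 R0 ∩ e.symm ⁻¹' interior Fx
  have hU : IsOpen U := (e.continuousOn_symm.mono fun w hw =>
    (hR0s (ball_subset_closedBall hw)).1).isOpen_inter_preimage isOpen_ball isOpen_interior
  obtain ⟨z, hz⟩ : (U ∩ ball w0 (R0 / 4)).Nonempty := by
    have hO : IsOpen (e.source ∩ e ⁻¹' ball w0 (R0 / 4)) :=
      e.isOpen_inter_preimage isOpen_ball
    obtain ⟨y, ⟨hys, hyb⟩, hyF⟩ := mem_closure_iff.1 hx _ hO
      ⟨hxs, mem_ball_self (by linarith)⟩
    refine ⟨e y, ⟨ball_subset_ball (by linarith) hyb, ?_⟩, hyb⟩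
    show e.symm (e y) ∈ interior Fx
    rwa [e.left_inv hys]
  have hw0U : w0 ∉ U := fun h => hxn (by
    have h' : e.symm w0 ∈ interior Fx := h.2
    rwa [hsym] at h')
  have hS : IsCompact (closedBall w0 R0 \ U) := (isCompact_closedBall _ _).diff hU
  obtain ⟨w2, hw2, hmin⟩ := hS.exists_isMinOn ⟨w0, mem_closedBall_self hR0.le, hw0U⟩
    (continuous_id.dist (continuous_const (y := z))).continuousOn
  let ρ := dist w2 z
  have hρpos : 0 < ρ := dist_pos.2 fun h => hw2.2 (h ▸ hz.1)
  have hzd : dist z w0 < R0 / 4 := hz.2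
  have hρle : ρ < R0 / 4 := by
    have h := hmin ⟨mem_closedBall_self hR0.le, hw0U⟩
    simp only [mem_setOf, id_eq, dist_comm w0 z] at h
    exact lt_of_le_of_lt h hzd
  have hballF : ∀ w, dist w z ≤ ρ → e.symm w ∈ Fx := by
    have hopen : ∀ w ∈ ball z ρ, e.symm w ∈ Fx := by
      intro w hw
      by_contra hne
      have hwU : w ∉ U := fun h => hne (interior_subset h.2)
      have hwb : w ∈ closedBall w0 R0 := by
        have := dist_triangle w z w0
        simp only [mem_ball] at hw
        simp only [mem_closedBall]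
        linarith
      have := hmin ⟨hwb, hwU⟩
      simp only [mem_setOf, id_eq] at this
      exact absurd hw (not_lt.2 this)
    intro w hw
    have hwc : w ∈ closure (ball z ρ) := by rw [closure_ball z hρpos.ne']; exact hw
    have hcont : ContinuousOn e.symm (closedBall z ρ) := e.continuousOn_symm.mono fun v hv =>
      (hR0s (show v ∈ closedBall w0 R0 by
        have := dist_triangle v z w0
        simp only [mem_closedBall] at hv ⊢
        linarith)).1
    exact hFc.closure_subset_iff.2 (image_subset_iff.2 hopen)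
      ((hcont.mono (closure_ball z hρpos.ne').le).image_closure ⟨w, hwc, rfl⟩)
  have hw2b : dist w2 w0 < R0 / 2 := by
    have := dist_triangle w2 z w0
    have : dist w2 z = ρ := rfl
    linarith
  have hw2F : e.symm w2 ∈ Fx := hballF w2 le_rfl
  -- the bent chart
  let a := ρ⁻¹ • (z - w2)
  have hanorm : ‖a‖ = 1 := by
    rw [norm_smul, Real.norm_eq_abs, abs_of_pos (inv_pos.2 hρpos), ← dist_eq_norm, dist_comm]
    exact inv_mul_cancel₀ hρpos.ne'
  have hza : z = w2 + ρ • a := by
    simp only [a, smul_smul, mul_inv_cancel₀ hρpos.ne', one_smul, add_sub_cancel]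
  let B := bend a ρ⁻¹
  let Θ : EuclideanSpace ℝ (Fin n) ≃ₜ EuclideanSpace ℝ (Fin n) :=
    (Homeomorph.addRight (-w2)).trans B
  let e' := e.transHomeomorph Θ
  have he's : ∀ w, e'.symm w = e.symm (Θ.symm w) := fun w => rfl
  have he't : ∀ w, w ∈ e'.target ↔ Θ.symm w ∈ e.target := fun w => Iff.rfl
  have hΘ0 : Θ.symm 0 = w2 := by
    rw [Homeomorph.symm_apply_eq]
    show (0 : EuclideanSpace ℝ (Fin n)) = B (w2 + -w2)
    simp [B, bend]
  have hball : ∀ w, dist w w2 ≤ R0 / 4 → w ∈ closedBall w0 R0 := fun w hw => by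
    have := dist_triangle w w2 w0
    simp only [mem_closedBall]; linarith
  have hsmall : ∀ᶠ w in 𝓝 (0 : EuclideanSpace ℝ (Fin n)),
      dist (Θ.symm w) w2 < R0 / 4 ∧ dist (Θ.symm w) w2 < ρ := by
    have h1 : ∀ ε > 0, ∀ᶠ w in 𝓝 (0 : EuclideanSpace ℝ (Fin n)), dist (Θ.symm w) w2 < ε := by
      intro ε hε
      have := (Θ.symm.continuous.tendsto 0).eventually (Metric.ball_mem_nhds (Θ.symm 0) hε)
      simpa [hΘ0] using this
    exact (h1 _ (by linarith)).and (h1 _ hρpos)
  obtain ⟨R, hR, hRs⟩ := Metric.nhds_basis_closedBall.mem_iff.1 hsmall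
  have hgood : ∀ w ∈ closedBall (0 : EuclideanSpace ℝ (Fin n)) R, Θ.symm w ∈ closedBall w0 R0 :=
    fun w hw => hball _ (hRs hw).1.le
  have hchart : ChartSet act e' (closedBall 0 R) :=
    ⟨isCompact_closedBall _ _, fun w hw => (hR0s (hgood w hw)).1,
      fun k w hw => (hR0s (hgood w hw)).2.2 k⟩
  have hvar : SmallVariation act e' (closedBall 0 R) := by
    let C0 := closedBall w0 R0
    have hCS0 : ChartSet act e C0 := ⟨isCompact_closedBall _ _, fun w hw => (hR0s hw).1,
      fun k w hw => (hR0s hw).2.2 k⟩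
    obtain ⟨Rb, hRb⟩ := ((isCompact_univ.prod hCS0.compact).image_of_continuousOn
      (continuousOn_actE hact hCS0)).isBounded.subset_closedBall (0 : EuclideanSpace ℝ (Fin n))
    obtain ⟨L, hL⟩ : ∃ L, LipschitzOnWith L (fun v => Θ v)
        (closedBall (0 : EuclideanSpace ℝ (Fin n)) Rb) := by
      have hB : ContDiff ℝ 1 fun v => B (v + -w2) := by
        show ContDiff ℝ 1 fun v =>
          (v + -w2) - (ρ⁻¹ * (‖v + -w2‖ ^ 2 * ‖a‖ ^ 2 - ⟪a, v + -w2⟫ ^ 2)) • a
        have h1 : ContDiff ℝ 1 fun v : EuclideanSpace ℝ (Fin n) => v + -w2 :=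
          contDiff_id.add contDiff_const
        exact h1.sub ((contDiff_const.mul (((h1.norm_sq ℝ).mul contDiff_const).sub
          ((contDiff_const.inner ℝ h1).pow 2))).smul contDiff_const)
      exact hB.contDiffOn.exists_lipschitzOnWith one_ne_zero (convex_closedBall _ _)
        (isCompact_closedBall _ _)
    let G : ℕ → ℝ≥0∞ := fun i =>
      ∑ r ∈ Finset.range (p ^ m), (L : ℝ≥0∞) ^ (n + 2) * oscSum n (fun w =>
        e (act (r : ℤ_[p]) (e.symm w))) C0 i
    have hG : Tendsto G atTop (𝓝 0) := by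
      have : Tendsto G atTop (𝓝 (∑ r ∈ Finset.range (p ^ m), (L : ℝ≥0∞) ^ (n + 2) * 0)) :=
        tendsto_finsetSum _ fun r _ => ENNReal.Tendsto.const_mul
          (hv (r : ℤ_[p]) e (chart_mem_atlas _ _) C0 (isCompact_closedBall _ _)
            (fun w hw => (hR0s hw).1) fun w hw => (hR0s hw).2.2 _)
          (Or.inr (ENNReal.pow_ne_top ENNReal.coe_ne_top))
      simpa using this
    refine smallVariation_of_tendsto (g := fun i q => Θ '' (C0 ∩ dyadicCube n i q))
      (F := fun i _ => G i) (fun i => ?_) (fun i => ?_) (by simpa using hG)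
    · intro w hw
      obtain ⟨q, hq⟩ := exists_dyadicCube i (Θ.symm w)
      exact mem_iUnion.2 ⟨q, Θ.symm w, ⟨hgood w hw, hq⟩, Θ.apply_symm_apply w⟩
    · simp only [lintegral_const, measure_univ, mul_one, G, oscSum]
      rw [← lintegral_tsum fun q => ?_]
      · refine (lintegral_mono (g := fun _ => G i) fun k => ?_).trans_eq (by simp [G, oscSum])
        simp only [G, oscSum]
        let r := PadicInt.appr k m
        obtain ⟨b, hb⟩ := Ideal.mem_span_singleton'.1 (PadicInt.appr_spec m k)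
        have hk : k = (r : ℤ_[p]) + (p : ℤ_[p]) ^ m * b := by
          rw [mul_comm, hb]; ring
        refine le_trans ?_ (Finset.single_le_sum (fun _ _ => zero_le)
          (Finset.mem_range.2 (PadicInt.appr_lt k m)))
        rw [← ENNReal.tsum_mul_left]
        refine ENNReal.tsum_le_tsum fun q => ?_
        rw [← mul_pow]
        refine pow_le_pow_left' ?_ _
        have hsub : (fun w => e (act (r : ℤ_[p]) (e.symm w))) '' (C0 ∩ dyadicCube n i q)
            ⊆ closedBall (0 : EuclideanSpace ℝ (Fin n)) Rb := by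
          rintro _ ⟨v, hv', rfl⟩
          exact hRb ⟨((r : ℤ_[p]), v), ⟨mem_univ _, hv'.1⟩, rfl⟩
        refine le_trans (ediam_mono ?_) (ediam_image_le_iff.2 fun x hx y hy =>
          (hL (hsub hx) (hsub hy)).trans (mul_le_mul' le_rfl (edist_le_ediam_of_mem hx hy)))
        rintro _ ⟨w, ⟨⟨v, hv1, rfl⟩, hwC⟩, rfl⟩
        have hval : actE act e' k (Θ v) = Θ (e (act (r : ℤ_[p]) (e.symm v))) := by
          show Θ (e (act k (e.symm (Θ.symm (Θ v))))) = _
          rw [Θ.symm_apply_apply, hk, hact.add, (hR0s hv1.1).2.1 b]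
        rw [hval]
        exact ⟨_, ⟨v, hv1, rfl⟩, rfl⟩
      · exact ((ENNReal.continuous_pow (n + 2)).measurable.comp
          (lowerSemicontinuous_ediam hact hchart _ inter_subset_right).measurable).aemeasurable
  have hfix : ∀ᶠ w in 𝓝 (0 : EuclideanSpace ℝ (Fin n)),
      ∀ k, act k (e'.symm w) = e'.symm w := by
    refine fixed_near_of_halfBall hact ((he't 0).2 ?_) (a := a)
      (fun h => by simp [h] at hanorm) hR hchart.target
      (fun w hw k => hchart.source k w hw) (m := m)
      (fun w hw k => (hR0s (hgood w hw)).2.1 k) ?_ hvar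
    · rw [hΘ0]; exact (hR0s (by simpa using (le_of_lt (by linarith) : dist w2 w0 ≤ R0))).1
    · intro w hw hge
      refine hballF (Θ.symm w) ?_
      set v := Θ.symm w with hv_def
      set u := v + -w2 with hu
      have hwu : w = u - (ρ⁻¹ * (‖u‖ ^ 2 * ‖a‖ ^ 2 - ⟪a, u⟫ ^ 2)) • a := by
        rw [show w = Θ v by rw [hv_def, Θ.apply_symm_apply]]
        rfl
      have hun : ‖u‖ < ρ := by
        have := (hRs hw).2
        rw [dist_eq_norm] at this
        simpa [hu, sub_eq_add_neg] using this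
      rw [hwu, inner_sub_right, real_inner_smul_right, real_inner_self_eq_norm_sq, hanorm] at hge
      have hl := abs_real_inner_le_norm a u
      rw [hanorm, one_mul] at hl
      have hl' := abs_le.1 hl
      have hmul : ‖u‖ ^ 2 - ⟪a, u⟫ ^ 2 ≤ ρ * ⟪a, u⟫ := by
        have h' : ρ * (ρ⁻¹ * (‖u‖ ^ 2 - ⟪a, u⟫ ^ 2)) ≤ ρ * ⟪a, u⟫ :=
          mul_le_mul_of_nonneg_left (by nlinarith) hρpos.le
        rwa [← mul_assoc, mul_inv_cancel₀ hρpos.ne', one_mul] at h'
      have hpos : 0 ≤ ⟪a, u⟫ := by
        have : ⟪a, u⟫ ^ 2 ≤ ‖u‖ ^ 2 := by nlinarith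
        nlinarith
      have hsq : ‖v - z‖ ^ 2 ≤ ρ ^ 2 := by
        rw [show v - z = u - ρ • a by rw [hu, hza]; abel, norm_sub_sq_real, norm_smul,
          real_inner_smul_right, real_inner_comm, hanorm, mul_one, Real.norm_eq_abs, sq_abs]
        nlinarith
      rw [dist_eq_norm]
      exact abs_le_of_sq_le_sq' hsq hρpos.le |>.2
  -- contradiction
  have hint : e.symm w2 ∈ interior Fx := by
    have hmem : w2 ∈ e.target := (hR0s (by
      simp only [mem_closedBall]; linarith : w2 ∈ closedBall w0 R0)).1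
    rw [mem_interior_iff_mem_nhds]
    have h1 : ∀ᶠ v in 𝓝 w2, ∀ k, act k (e.symm v) = e.symm v := by
      have ht : Tendsto Θ (𝓝 w2) (𝓝 0) := by
        have := Θ.continuous.tendsto w2
        rwa [← hΘ0, Θ.apply_symm_apply, hΘ0] at this
      filter_upwards [ht.eventually hfix] with v hv
      simpa [he's] using hv
    have hw2s : e.symm w2 ∈ e.source := e.map_target hmem
    have h2 := (e.continuousAt hw2s)
    have h3 : Tendsto e (𝓝 (e.symm w2)) (𝓝 w2) := by
      have := h2.tendsto
      rwa [e.right_inv hmem] at this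
    filter_upwards [h3.eventually h1, e.open_source.mem_nhds hw2s] with y hy hys a
    simpa [e.left_inv hys] using hy a
  exact hw2.2 ⟨by simp only [mem_ball]; linarith, hint⟩

/-- An open subgroup acts trivially. -/
theorem exists_trivial [ConnectedSpace M] (hact : ZpAct p act)
    (hv : ∀ a, VanishingVariation n (act a)) :
    ∃ k : ℕ, ∀ a m, act ((p : ℤ_[p]) ^ k * a) m = m := by
  obtain ⟨x⟩ := (inferInstance : Nonempty M)
  obtain ⟨k, hk⟩ := exists_trivial_near hact hv x
  refine ⟨k, fun a m => ?_⟩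
  let act' : ℤ_[p] → M → M := fun a => act ((p : ℤ_[p]) ^ k * a)
  have h := isClosed_interior_fixed (act := act') (hact.scale _) fun a => hv _
  have huniv : interior {y : M | ∀ a, act' a y = y} = univ :=
    IsClopen.eq_univ ⟨h, isOpen_interior⟩ ⟨x, mem_interior_iff_mem_nhds.2 hk⟩
  exact interior_subset (huniv.ge (mem_univ m)) a

end Vale.Agent.P228
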